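import Vale.Agent.P011.H775.Odd.Top

/-!
**A submultiplicative norm for the topology of `H775/Odd/Top`**: the operator norm of the left
multiplication with respect to the size of the coordinates.
-/

open Module Topology Filter

set_option linter.style.haveILetI false
set_option linter.unusedSectionVars false

namespace Vale.Agent.P011.H775.Top

variable {k D : Type*} [Field k] [DivisionRing D] [Algebra k D] {ι κ : Type*} [Fintype ι]
  [Fintype κ] [Nonempty ι] (B : Basis κ k D) (a : ι → AbsoluteValue k ℝ)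

theorem sz_pos {x : D} (hx : x ≠ 0) : 0 < sz B a x :=
  lt_of_le_of_ne (sz_nonneg B a x) fun h => hx (eq_zero_of_sz B a h.symm)

/-- The norm of the left multiplication. -/
noncomputable def pn (x : D) : ℝ := ⨆ y : {y : D // y ≠ 0}, sz B a (x * y.1) / sz B a y.1

theorem bdd (x : D) :
    BddAbove (Set.range fun y : {y : D // y ≠ 0} => sz B a (x * y.1) / sz B a y.1) := by
  obtain ⟨C, hC, hm⟩ := sz_mul B a
  refine ⟨C * sz B a x, ?_⟩
  rintro _ ⟨y, rfl⟩
  exact (div_le_iff₀ (sz_pos B a y.2)).mpr (hm x y.1)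

instance : Nonempty {y : D // y ≠ 0} := ⟨⟨1, one_ne_zero⟩⟩

theorem sz_mul_le (x y : D) : sz B a (x * y) ≤ pn B a x * sz B a y := by
  by_cases hy : y = 0
  · rw [hy, mul_zero, sz_zero, mul_zero]
  · exact (div_le_iff₀ (sz_pos B a hy)).mp (le_ciSup (bdd B a x) (⟨y, hy⟩ : {y : D // y ≠ 0}))

theorem pn_le_of {x : D} {r : ℝ} (h : ∀ y, sz B a (x * y) ≤ r * sz B a y) : pn B a x ≤ r :=
  ciSup_le fun y => (div_le_iff₀ (sz_pos B a y.2)).mpr (h y.1)

theorem pn_nonneg (x : D) : 0 ≤ pn B a x := by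
  have h := sz_mul_le B a x 1
  have h1 := sz_pos B a (one_ne_zero (α := D))
  by_contra hn
  push Not at hn
  have := sz_nonneg B a (x * 1)
  nlinarith

theorem sz_le_pn (x : D) : sz B a x ≤ pn B a x * sz B a 1 := by
  have h := sz_mul_le B a x 1
  rwa [mul_one] at h

theorem exists_pn_le : ∃ C : ℝ, 0 < C ∧ ∀ x, pn B a x ≤ C * sz B a x := by
  obtain ⟨C, hC, hm⟩ := sz_mul B a
  exact ⟨C, hC, fun x => pn_le_of B a (hm x)⟩

theorem pn_zero : pn B a 0 = 0 :=
  le_antisymm (pn_le_of B a fun y => by rw [zero_mul, sz_zero, zero_mul]) (pn_nonneg B a 0)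

theorem pn_one : pn B a 1 = 1 := by
  refine le_antisymm (pn_le_of B a fun y => by rw [one_mul, one_mul]) ?_
  have h := sz_mul_le B a 1 1
  rw [one_mul] at h
  have h1 := sz_pos B a (one_ne_zero (α := D))
  by_contra hn
  push Not at hn
  nlinarith

theorem pn_neg (x : D) : pn B a (-x) = pn B a x := by
  have h : ∀ x, pn B a (-x) ≤ pn B a x := fun x => pn_le_of B a fun y => by
    rw [neg_mul, sz_neg]
    exact sz_mul_le B a x y
  refine le_antisymm (h x) ?_
  have := h (-x)
  rwa [neg_neg] at this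

theorem pn_add_le (x y : D) : pn B a (x + y) ≤ pn B a x + pn B a y := pn_le_of B a fun z => by
  rw [add_mul, add_mul]
  exact (sz_add_le B a _ _).trans (add_le_add (sz_mul_le B a x z) (sz_mul_le B a y z))

theorem pn_add_le_max (ha : ∀ i, IsNonarchimedean (a i)) (x y : D) :
    pn B a (x + y) ≤ max (pn B a x) (pn B a y) := pn_le_of B a fun z => by
  rw [add_mul]
  refine (sz_add_le_max B a ha _ _).trans (max_le ?_ ?_)
  · exact (sz_mul_le B a x z).trans
      (mul_le_mul_of_nonneg_right (le_max_left _ _) (sz_nonneg B a z))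
  · exact (sz_mul_le B a y z).trans
      (mul_le_mul_of_nonneg_right (le_max_right _ _) (sz_nonneg B a z))

theorem pn_mul_le (x y : D) : pn B a (x * y) ≤ pn B a x * pn B a y := pn_le_of B a fun z => by
  rw [mul_assoc, mul_assoc]
  exact (sz_mul_le B a x _).trans
    (mul_le_mul_of_nonneg_left (sz_mul_le B a y z) (pn_nonneg B a x))

theorem eq_zero_of_pn {x : D} (h : pn B a x = 0) : x = 0 := by
  have h1 := sz_le_pn B a x
  rw [h, zero_mul] at h1
  exact eq_zero_of_sz B a (le_antisymm h1 (sz_nonneg B a x))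

/-- **The norm defines the topology.** -/
theorem hasBasis_pn (x₀ : D) : (@nhds D (topD B a) x₀).HasBasis (fun ε : ℝ => 0 < ε)
    fun ε => {x | pn B a (x - x₀) < ε} := by
  obtain ⟨C, hC, hCm⟩ := exists_pn_le B a
  have h1 := sz_pos B a (one_ne_zero (α := D))
  refine (hasBasis B a x₀).to_hasBasis (fun ε hε => ?_) (fun ε hε => ?_)
  · refine ⟨ε / sz B a 1, by positivity, fun x hx => ?_⟩
    exact (sz_le_pn B a _).trans_lt ((lt_div_iff₀ h1).mp hx)
  · refine ⟨ε / C, by positivity, fun x hx => ?_⟩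
    refine (hCm _).trans_lt ?_
    rw [mul_comm]
    exact (lt_div_iff₀ hC).mp hx

theorem mem_nhds_iff_pn {x₀ : D} {U : Set D} : U ∈ @nhds D (topD B a) x₀ ↔
    ∃ ε : ℝ, 0 < ε ∧ ∀ x, pn B a (x - x₀) < ε → x ∈ U :=
  (hasBasis_pn B a x₀).mem_iff

theorem eventually_iff_pn {x₀ : D} {P : D → Prop} : (∀ᶠ x in @nhds D (topD B a) x₀, P x) ↔
    ∃ ε : ℝ, 0 < ε ∧ ∀ x, pn B a (x - x₀) < ε → P x :=
  mem_nhds_iff_pn B a (U := {x | P x})

/-- the norm of a small scalar is small -/
theorem pn_smul_le (c : k) (x : D) {r : ℝ} (hr : ∀ i, a i c ≤ r) (hr0 : 0 ≤ r) :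
    pn B a (c • x) ≤ r * pn B a x := pn_le_of B a fun y => by
  rw [smul_mul_assoc, mul_assoc]
  exact (sz_smul_le B a c _ hr hr0).trans (mul_le_mul_of_nonneg_left (sz_mul_le B a x y) hr0)

end Vale.Agent.P011.H775.Top
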