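import Vale.Agent.P011.H775.Odd.TopMod
import Vale.Agent.P011.H698.DensFF

/-!
**Function fields (and every field with places): the topology of `D` given by a finite set `T` of
places of `k`**, in the letters `Sm`.
-/

open Module Topology Filter

set_option linter.style.haveILetI false
set_option linter.unusedSectionVars false

namespace Vale.Agent.P011.H775.Top

open Vale.Agent.P011.H738 Vale.Agent.P011.H271 Vale.Agent.P011.H698

variable {k D : Type} [Field k] [DivisionRing D] [Algebra k D] {N : ℕ}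
  (B : Basis (Fin N) k D) (T : Finset (Place k))

/-- The absolute values of the places of `T`. -/
noncomputable def avF (T : Finset (Place k)) (v : T) : AbsoluteValue k ℝ := (v : Place k).abv

theorem avF_nonarch (T : Finset (Place k)) (v : T) : IsNonarchimedean (avF T v) :=
  fun x y => v.1.nonarch x y

/-- **A nonzero scalar which is small at all the places of `T`.** -/
theorem exists_small_ff : ∃ t : k, t ≠ 0 ∧ ∀ v : T, avF T v t < 1 := by
  rcases T.eq_empty_or_nonempty with rfl | ⟨v₀, hv₀⟩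
  · exact ⟨1, one_ne_zero, fun p => absurd p.2 (Finset.notMem_empty _)⟩
  have h1 : ∀ v : Place k, ∃ z : k, z ≠ 0 ∧ v.abv z < 1 := by
    intro v
    obtain ⟨x, hx0, hx1⟩ := place_nontrivial v
    rcases lt_or_gt_of_ne hx1 with h | h
    · exact ⟨x, hx0, h⟩
    · refine ⟨x⁻¹, inv_ne_zero hx0, ?_⟩
      rw [map_inv₀]
      exact inv_lt_one_of_one_lt₀ h
  choose z hz0 hz1 using h1
  obtain ⟨w, hw, hmin⟩ := T.exists_min_image (fun v => v.abv (z v)) ⟨v₀, hv₀⟩
  obtain ⟨f, hf⟩ := place_weak T (fun v => algebraMap k (v : Place k).comp (z v))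
    (η := w.abv (z w)) ((w.abv).pos (hz0 w))
  have hf' : ∀ v ∈ T, v.abv (f - z v) < v.abv (z v) := by
    intro v hv
    have h2 := hf ⟨v, hv⟩
    rw [← map_sub, norm_alg] at h2
    exact h2.trans_le (hmin v hv)
  refine ⟨f, ?_, fun v => ?_⟩
  · rintro rfl
    have h2 := hf' v₀ hv₀
    rw [zero_sub, AbsoluteValue.map_neg] at h2
    exact lt_irrefl _ h2
  · have h2 := hf' v.1 v.2
    have h3 : v.1.abv f ≤ max (v.1.abv (f - z v.1)) (v.1.abv (z v.1)) := by
      have := v.1.nonarch (f - z v.1) (z v.1)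
      rwa [sub_add_cancel] at this
    change v.1.abv f < 1
    exact h3.trans_lt (max_lt (h2.trans (hz1 v.1)) (hz1 v.1))

variable [Nonempty T]

/-- **The neighbourhoods in the letters `Sm`.** -/
theorem eventually_iff_sm {x₀ : D} {P : D → Prop} :
    (∀ᶠ x in @nhds D (topD B (avF T)) x₀, P x) ↔
      ∃ ε : ℝ, 0 < ε ∧ ∀ x, (∀ v ∈ T, Sm B v ε (x - x₀)) → P x := by
  rw [eventually_iff]
  constructor
  · rintro ⟨ε, hε, h⟩
    exact ⟨ε, hε, fun x hx => h x fun p j => hx p.1 p.2 j⟩
  · rintro ⟨ε, hε, h⟩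
    exact ⟨ε, hε, fun x hx => h x fun v hv i => hx ⟨v, hv⟩ i⟩

theorem mem_nhds_iff_sm {x₀ : D} {U : Set D} : U ∈ @nhds D (topD B (avF T)) x₀ ↔
    ∃ ε : ℝ, 0 < ε ∧ ∀ x, (∀ v ∈ T, Sm B v ε (x - x₀)) → x ∈ U :=
  eventually_iff_sm B T (P := fun x => x ∈ U)

/-- The elements close to `x₀` at the places of `T`. -/
theorem ball_mem_sm {x₀ : D} {ε : ℝ} (hε : 0 < ε) :
    {x : D | ∀ v ∈ T, Sm B v ε (x - x₀)} ∈ @nhds D (topD B (avF T)) x₀ :=
  (mem_nhds_iff_sm B T).mpr ⟨ε, hε, fun _ hx => hx⟩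

theorem instF_D : @IsTopologicalDivisionRing D _ (topD B (avF T)) := isTopologicalDivisionRing B _

theorem instF_t2 : @T2Space D (topD B (avF T)) := t2 B _

theorem instF_na : @NonarchimedeanAddGroup D _ (topD B (avF T)) :=
  nonarchimedeanAddGroup B _ (avF_nonarch T)

theorem instF_star [StarRing D] (hst : ∀ (c : k) (x : D), star (c • x) = c • star x) :
    @ContinuousStar D (topD B (avF T)) _ := continuousStar B _ hst

/-- 439's hypothesis `hK`. -/
theorem instF_norm {K : Type} [Field K] [StarRing K] [Algebra k K] [Algebra K D]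
    [IsScalarTower k K D] (hfix : ∀ c : k, star (algebraMap k K c) = algebraMap k K c) (O : Set K)
    (hO : O ∈ @nhds K (topI K (topD B (avF T))) 0) (S : Finset K) :
    ∃ ν ∈ O, ν ≠ 0 ∧ ν * star ν ∉ S := by
  obtain ⟨t, ht0, ht⟩ := exists_small_ff T
  exact exists_norm_notMem B (avF T) ht0 ht hfix O hO S

/-- Small scalars. -/
theorem instF_small (O : Set D) (hO : O ∈ @nhds D (topD B (avF T)) 0) :
    ∃ c : k, c ≠ 0 ∧ algebraMap k D c ∈ O := by
  obtain ⟨t, ht0, ht⟩ := exists_small_ff T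
  exact exists_small B (avF T) ht0 ht O hO

theorem instF_neBot : (@nhdsWithin k (topk (avF T)) 0 {0}ᶜ).NeBot := by
  obtain ⟨t, ht0, ht⟩ := exists_small_ff T
  exact topk_neBot (avF T) ht0 ht

end Vale.Agent.P011.H775.Top
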