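import Vale.Agent.P011.H775.Odd.RepNF
import Vale.Agent.P011.One.WAc

/-!
**Number fields: weak approximation of the unitary elements at the places of `T`**, in the letters
of `H373/Odd/RepT`.
-/

open Module Topology Filter NumberField IsDedekindDomain TensorProduct

set_option linter.style.haveILetI false
set_option linter.unusedSectionVars false

namespace Vale.Agent.P011.H775.Top

open Vale.Agent.P011.Arith Vale.Agent.P011.Even Vale.Agent.P011.Two Vale.Agent.P011.One
  Vale.Agent.P011.H373.Odd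

variable {k K D : Type} [Field k] [NumberField k] [Field K] [NumberField K] [StarRing K]
  [DivisionRing D] [StarRing D] [Algebra k K] [Algebra k D] [Algebra K D] [IsScalarTower k K D]
  {d : kˣ} {s : K} {N : ℕ} (B : Basis (Fin N) k D) (T : Finset (Pl k)) [Nonempty T]

/-- Convergence in the topology of `T` in the letters `nm`. -/
theorem tendsto_of_nm {f : ℕ → D} {x₀ : D}
    (h : ∀ p ∈ T, Tendsto (fun m => nm B p (f m - x₀)) atTop (𝓝 0)) :
    Tendsto f atTop (@nhds D (topD B (av T)) x₀) := by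
  refine tendsto_def.mpr fun U hU => ?_
  obtain ⟨ε, hε, hs⟩ := (mem_nhds_iff_nm B T).mp hU
  have h2 : ∀ᶠ m in atTop, ∀ p : T, nm B p.1 (f m - x₀) < ε :=
    eventually_all.mpr fun p => (h p.1 p.2).eventually_lt_const hε
  filter_upwards [h2] with m hm
  exact hs (f m) fun p hp => hm ⟨p, hp⟩

theorem nm_of_tendsto {f : ℕ → D} {x₀ : D} (h : Tendsto f atTop (@nhds D (topD B (av T)) x₀))
    {p : Pl k} (hp : p ∈ T) (i : Fin N) :
    Tendsto (fun m => plAbv p (B.repr (f m - x₀) i)) atTop (𝓝 0) := by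
  have h1 := (tendsto_iff B (av T)).mp h
  exact squeeze_zero (fun m => (plAbv p).nonneg _) (fun m => coord_le B (av T) _ ⟨p, hp⟩ i) h1

/-- Convergent sequences at a place. -/
theorem cv_of_tendsto {f : ℕ → D} {x₀ : D} (h : Tendsto f atTop (@nhds D (topD B (av T)) x₀))
    {v : HeightOneSpectrum (𝓞 k)} (hv : (Sum.inl v : Pl k) ∈ T) : Cv B v f (1 ⊗ₜ x₀) := by
  intro i
  have h1 := nm_of_tendsto B T h hv i
  have h2 : Tendsto (fun m => algebraMap k (v.adicCompletion k) (B.repr (f m - x₀) i)) atTop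
      (𝓝 0) := by
    rw [tendsto_zero_iff_norm_tendsto_zero]
    refine h1.congr fun m => ?_
    rw [plAbv_norm]
  have h3 := h2.add_const (algebraMap k (v.adicCompletion k) (B.repr x₀ i))
  rw [zero_add] at h3
  rw [cof_tmul]
  refine h3.congr fun m => ?_
  rw [← map_add, map_sub, Finsupp.sub_apply, sub_add_cancel]

/-- The limit of a Cauchy sequence at a place of `T`. -/
theorem exists_cv_of_cau {w : ℕ → D} (hw : letI := topD B (av T); Cau w)
    {v : HeightOneSpectrum (𝓞 k)} (hv : (Sum.inl v : Pl k) ∈ T) :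
    ∃ X : v.adicCompletion k ⊗[k] D, Cv B v w X := by
  have hc : ∀ i, CauchySeq fun m => algebraMap k (v.adicCompletion k) (B.repr (w m) i) := by
    intro i
    refine Metric.cauchySeq_iff.mpr fun ε hε => ?_
    obtain ⟨M, hM⟩ := hw {x | ∀ p ∈ T, nm B p (x - 0) < ε} (ball_mem B T hε)
    refine ⟨M, fun a ha b hb => ?_⟩
    have h1 := hM a ha b hb (Sum.inl v) hv
    rw [sub_zero] at h1
    have h2 := nm_lt_coord B _ h1 i
    rw [plAbv_norm, map_sub, Finsupp.sub_apply, map_sub, ← dist_eq_norm] at h2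
    exact h2
  choose c hc' using fun i => cauchySeq_tendsto_of_complete (hc i)
  refine ⟨∑ i, c i ⊗ₜ[k] B i, fun i => ?_⟩
  have h1 : cof B v (∑ i, c i ⊗ₜ[k] B i) i = c i := by
    have h2 : (∑ i, c i ⊗ₜ[k] B i) =
        (Algebra.TensorProduct.basis (v.adicCompletion k) B).equivFun.symm c := by
      rw [Basis.equivFun_symm_apply]
      refine Finset.sum_congr rfl fun j _ => ?_
      rw [Algebra.TensorProduct.basis_apply, TensorProduct.smul_tmul', smul_eq_mul, mul_one]
    rw [cof, h2, ← Basis.equivFun_apply, LinearEquiv.apply_symm_apply]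
  rw [h1]
  exact hc' i

/-- **Weak approximation of the unitary elements.** -/
theorem wu_nf (hS : Setting k K D d s)
    (hT : ∀ p ∈ T, ∃ v : HeightOneSpectrum (𝓞 k), p = Sum.inl v ∧
      Nonempty (K →ₐ[k] v.adicCompletion k)) :
    letI := topD B (av T)
    WU D := by
  classical
  letI := topD B (av T)
  have htop : IsTopologicalDivisionRing D := isTopologicalDivisionRing B (av T)
  have hstk : ∀ c : k, star (algebraMap k D c) = algebraMap k D c := fun c => by
    rw [IsScalarTower.algebraMap_apply k K D, hS.star_alg, (hS.fix _).mpr ⟨c, rfl⟩]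
  intro w hw h1 h2
  have hex : ∀ v : HeightOneSpectrum (𝓞 k), ∃ X : (v.adicCompletion k ⊗[k] D)ˣ,
      (Sum.inl v : Pl k) ∈ T → Cv B v w (X : v.adicCompletion k ⊗[k] D) ∧
        (X : v.adicCompletion k ⊗[k] D) * starAt hstk v X = 1 := by
    intro v
    by_cases hv : (Sum.inl v : Pl k) ∈ T
    · obtain ⟨X, hX⟩ := exists_cv_of_cau B T hw hv
      have hsX : Cv B v (fun j => star (w j)) (starAt hstk v X) := Cv.linear (starLin hstk) hX
      have h3 : X * starAt hstk v X = 1 ⊗ₜ 1 :=
        (hX.mul hsX).unique B v (cv_of_tendsto B T h1 hv)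
      have h4 : starAt hstk v X * X = 1 ⊗ₜ 1 :=
        (hsX.mul hX).unique B v (cv_of_tendsto B T h2 hv)
      rw [← Algebra.TensorProduct.one_def] at h3 h4
      exact ⟨⟨X, starAt hstk v X, h3, h4⟩, fun _ => ⟨hX, h3⟩⟩
    · exact ⟨1, fun h => absurd h hv⟩
  choose X hX using hex
  let A : Set (HeightOneSpectrum (𝓞 k)) := {v | (Sum.inl v : Pl k) ∈ T}
  have hA : A.Finite := T.finite_toSet.preimage Sum.inl_injective.injOn
  obtain ⟨g, hg1, hg2⟩ := exists_seq_unitary hS hstk B hA
    (fun v hv => by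
      obtain ⟨v', hv', hn⟩ := hT _ hv
      obtain rfl := Sum.inl_injective hv'
      exact hn) X (fun v hv => (hX v hv).2)
  refine ⟨g, hg1, tendsto_of_nm B T fun p hp => ?_⟩
  obtain ⟨v, rfl, -⟩ := hT p hp
  have h3 : Cv B v (fun m => g m - w m) (1 ⊗ₜ 0) := by
    have h4 := (hg2 v hp).sub (hX v hp).1
    rw [sub_self] at h4
    rwa [tmul_zero]
  exact h3.size

end Vale.Agent.P011.H775.Top
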