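import Vale.Agent.P011.H775.Odd.TopNorm

/-!
**The topology of `H775/Odd/Top` is the module topology** over the base field `k` with the
topology of the absolute values.  In particular it does not depend on the basis, linear maps are
continuous, and the topology induced on a subfield `K` is its own topology.
-/

open Module Topology Filter

set_option linter.style.haveILetI false
set_option linter.unusedSectionVars false
set_option warn.classDefReducibility false

namespace Vale.Agent.P011.H775.Top

section lin

variable {k D D' : Type*} [Field k] [DivisionRing D] [Algebra k D] [DivisionRing D'] [Algebra k D']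
  {ι κ κ' : Type*} [Fintype ι] [Fintype κ] [Fintype κ'] [Nonempty ι] (B : Basis κ k D)
  (B' : Basis κ' k D') (a : ι → AbsoluteValue k ℝ)

/-- linear maps are bounded -/
theorem sz_lin (f : D →ₗ[k] D') : ∃ C : ℝ, 0 < C ∧ ∀ x, sz B' a (f x) ≤ C * sz B a x := by
  have h0 : 0 ≤ ∑ l, sz B' a (f (B l)) := Finset.sum_nonneg fun l _ => sz_nonneg B' a _
  refine ⟨∑ l, sz B' a (f (B l)) + 1, by linarith, fun x => ?_⟩
  have hx := sz_nonneg B a x
  refine (sz_le_iff B' a (by positivity)).mpr fun i j => ?_
  have h1 : B'.repr (f x) j = ∑ l, B.repr x l * B'.repr (f (B l)) j := by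
    conv_lhs => rw [← B.sum_repr x]
    rw [map_sum, map_sum, Finsupp.finsetSum_apply]
    refine Finset.sum_congr rfl fun l _ => ?_
    rw [map_smul, map_smul, Finsupp.smul_apply, smul_eq_mul]
  rw [h1]
  refine ((a i).sum_le _ _).trans ?_
  have h2 : ∀ l ∈ (Finset.univ : Finset κ), a i (B.repr x l * B'.repr (f (B l)) j) ≤
      sz B' a (f (B l)) * sz B a x := by
    intro l _
    rw [map_mul, mul_comm]
    exact mul_le_mul (coord_le B' a _ i j) (coord_le B a x i l) ((a i).nonneg _) (sz_nonneg B' a _)
  refine (Finset.sum_le_sum h2).trans ?_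
  rw [← Finset.sum_mul]
  exact mul_le_mul_of_nonneg_right (by linarith) hx

/-- **Linear maps are continuous.** -/
theorem continuous_lin (f : D →ₗ[k] D') : @Continuous D D' (topD B a) (topD B' a) f := by
  obtain ⟨C, hC, hs⟩ := sz_lin B B' a f
  letI := topD B a
  letI := topD B' a
  refine continuous_iff_continuousAt.mpr fun x₀ => ?_
  change Tendsto _ _ _
  rw [tendsto_iff B' a]
  have h1 : Tendsto (fun x => C * sz B a (x - x₀)) (𝓝 x₀) (𝓝 (C * 0)) :=
    ((tendsto_iff B a).mp tendsto_id).const_mul C
  rw [mul_zero] at h1
  refine squeeze_zero (fun x => sz_nonneg B' a _) (fun x => ?_) h1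
  rw [← map_sub]
  exact hs (x - x₀)

/-- The topology does not depend on the basis. -/
theorem topD_eq {κ₂ : Type*} [Fintype κ₂] (B₂ : Basis κ₂ k D) : topD B a = topD B₂ a :=
  le_antisymm (continuous_id_iff_le.mp (continuous_lin B B₂ a LinearMap.id))
    (continuous_id_iff_le.mp (continuous_lin B₂ B a LinearMap.id))

end lin

section base

variable {k : Type*} [Field k] {ι : Type*} [Fintype ι] [Nonempty ι] (a : ι → AbsoluteValue k ℝ)

/-- **The topology of the base field.** -/
noncomputable def topk : TopologicalSpace k := topD (Basis.singleton Unit k) a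

theorem sz_singleton_le_iff {c : k} {r : ℝ} (hr : 0 ≤ r) :
    sz (Basis.singleton Unit k) a c ≤ r ↔ ∀ i, a i c ≤ r := by
  rw [sz_le_iff _ a hr]
  constructor
  · intro h i
    have := h i ()
    rwa [Basis.singleton_repr] at this
  · intro h i j
    rw [Basis.singleton_repr]
    exact h i

theorem abv_le_sz (c : k) (i : ι) : a i c ≤ sz (Basis.singleton Unit k) a c :=
  (sz_singleton_le_iff a (sz_nonneg _ a c)).mp le_rfl i

theorem topk_isTopologicalDivisionRing : @IsTopologicalDivisionRing k _ (topk a) :=
  isTopologicalDivisionRing _ a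

theorem topk_t2 : @T2Space k (topk a) := t2 _ a

theorem topk_nonarchimedean (ha : ∀ i, IsNonarchimedean (a i)) :
    @NonarchimedeanAddGroup k _ (topk a) := nonarchimedeanAddGroup _ a ha

/-- The neighbourhoods in the base field. -/
theorem topk_mem_nhds_iff {c₀ : k} {U : Set k} : U ∈ @nhds k (topk a) c₀ ↔
    ∃ ε : ℝ, 0 < ε ∧ ∀ c, (∀ i, a i (c - c₀) < ε) → c ∈ U := by
  have h := mem_nhds_iff (Basis.singleton Unit k) a (x₀ := c₀) (U := U)
  refine h.trans ?_
  constructor
  · rintro ⟨ε, hε, h⟩
    exact ⟨ε, hε, fun c hc => h c fun i j => by rw [Basis.singleton_repr]; exact hc i⟩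
  · rintro ⟨ε, hε, h⟩
    refine ⟨ε, hε, fun c hc => h c fun i => ?_⟩
    have := hc i ()
    rwa [Basis.singleton_repr] at this

/-- The powers of a topologically nilpotent scalar tend to zero. -/
theorem topk_tendsto_pow {t : k} (ht : ∀ i, a i t < 1) :
    Tendsto (fun m : ℕ => t ^ m) atTop (@nhds k (topk a) 0) := by
  have h := tendsto_pow_alg (Basis.singleton Unit k) a ht
  exact h

/-- Zero is not isolated. -/
theorem topk_neBot {t : k} (ht0 : t ≠ 0) (ht : ∀ i, a i t < 1) :
    (@nhdsWithin k (topk a) 0 {0}ᶜ).NeBot := by
  letI := topk a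
  have h1 : Tendsto (fun m : ℕ => t ^ m) atTop (𝓝[≠] 0) :=
    tendsto_nhdsWithin_iff.mpr ⟨topk_tendsto_pow a ht, Eventually.of_forall fun m =>
      pow_ne_zero _ ht0⟩
  exact h1.neBot

end base

section module

variable {k D : Type*} [Field k] [DivisionRing D] [Algebra k D] {ι κ : Type*} [Fintype ι]
  [Fintype κ] [Nonempty ι] (B : Basis κ k D) (a : ι → AbsoluteValue k ℝ)

/-- **The topology of `D` is the module topology.** -/
theorem isModuleTopology :
    letI := topk a
    letI := topD B a
    IsModuleTopology k D := by
  letI := topk a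
  letI := topD B a
  have h1 : IsTopologicalDivisionRing k := topk_isTopologicalDivisionRing a
  have h2 : IsTopologicalDivisionRing D := isTopologicalDivisionRing B a
  have hf : Continuous (B.equivFun : D → κ → k) := by
    refine continuous_pi fun j => ?_
    have h := continuous_lin B (Basis.singleton Unit k) a (B.coord j)
    exact h
  have hg : Continuous (B.equivFun.symm : (κ → k) → D) := by
    have h3 : (B.equivFun.symm : (κ → k) → D) = fun c => ∑ j, c j • B j :=
      funext fun c => B.equivFun_symm_apply c
    rw [h3]
    refine continuous_finsetSum _ fun j _ => ?_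
    have h4 : Continuous fun c : k => c • B j :=
      continuous_lin (Basis.singleton Unit k) B a (LinearMap.toSpanSingleton k D (B j))
    exact h4.comp (continuous_apply j)
  let e : (κ → k) ≃L[k] D :=
    { B.equivFun.symm with
      continuous_toFun := hg
      continuous_invFun := hf }
  exact IsModuleTopology.iso e

theorem topD_eq_moduleTopology : topD B a = (letI := topk a; moduleTopology k D) := by
  letI := topk a
  letI := topD B a
  have h : IsModuleTopology k D := isModuleTopology B a
  exact eq_moduleTopology k D

/-- The neighbourhoods of one in the module topology. -/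
theorem nhds_moduleTopology (x₀ : D) :
    (letI := topk a; @nhds D (moduleTopology k D) x₀) = @nhds D (topD B a) x₀ := by
  rw [topD_eq_moduleTopology B a]

end module

section tower

variable {k K D : Type*} [Field k] [Field K] [DivisionRing D] [Algebra k D] [Algebra k K]
  [Algebra K D] [IsScalarTower k K D] {ι κ κ' : Type*} [Fintype ι] [Fintype κ] [Fintype κ']
  [Nonempty ι] (B : Basis κ k D) (B' : Basis κ' k K) (a : ι → AbsoluteValue k ℝ)

/-- **The topology induced on a subfield is its own topology.** -/
theorem topI_eq : topI K (topD B a) = topD B' a := by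
  let f : K →ₗ[k] D := (IsScalarTower.toAlgHom k K D).toLinearMap
  have hf : ∀ x, f x = algebraMap K D x := fun x => rfl
  have hinj : Function.Injective f := (algebraMap K D).injective
  obtain ⟨π, hπ⟩ := f.exists_leftInverse_of_injective (LinearMap.ker_eq_bot.mpr hinj)
  have hπ' : ∀ x, π (algebraMap K D x) = x := fun x => LinearMap.congr_fun hπ x
  refine le_antisymm ?_ ?_
  · refine continuous_id_iff_le.mp ?_
    have h1 : @Continuous K K (topI K (topD B a)) (topD B' a) (π ∘ algebraMap K D) := by
      letI := topD B a
      letI := topI K (topD B a)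
      exact @Continuous.comp K D K _ _ (topD B' a) _ _ (continuous_lin B B' a π)
        (topI_continuous (topD B a))
    have h2 : (π ∘ algebraMap K D) = (id : K → K) := funext hπ'
    rwa [h2] at h1
  · refine continuous_id_iff_le.mp ?_
    letI := topD B a
    refine continuous_induced_rng.mpr ?_
    have h1 := continuous_lin B' B a f
    exact h1

/-- The topology induced on the base field. -/
theorem topI_base : topI k (topD B a) = topk a := topI_eq B (Basis.singleton Unit k) a

end tower

end Vale.Agent.P011.H775.Top
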