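import Vale.Agent.P011.H775.Odd.TopNorm
import Vale.Agent.P011.H518.Star
import Vale.Agent.P011.H182.Nma

/-!
**Number fields: the topology of `D` given by a finite set `T` of places of `k`**, in the letters
`nm`, `Nr`, `PF`.  The set `T` is arbitrary (finite, nonempty; finite places for the ultrametric
statements), the algebra need not remain a division algebra at the places of `T`.
-/

open Module Topology Filter NumberField IsDedekindDomain

set_option linter.style.haveILetI false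
set_option linter.unusedSectionVars false

namespace Vale.Agent.P011.H775.Top

open Vale.Agent.P011.Arith Vale.Agent.P011.Even Vale.Agent.P011.Two Vale.Agent.P011.One
  Vale.Agent.P011.H518

variable {k K D : Type} [Field k] [NumberField k] [Field K] [DivisionRing D] [Algebra k K]
  [Algebra k D] [Algebra K D] {N : ℕ} (B : Basis (Fin N) k D) (T : Finset (Pl k))

/-- The absolute values of the places of `T`. -/
noncomputable def av (T : Finset (Pl k)) (p : T) : AbsoluteValue k ℝ := plAbv p.1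

theorem av_nonarch {T : Finset (Pl k)} (hT : ∀ p ∈ T, ∃ v : HeightOneSpectrum (𝓞 k), p = Sum.inl v)
    (p : T) : IsNonarchimedean (av T p) := by
  obtain ⟨v, hv⟩ := hT p.1 p.2
  have h : av T p = plAbv (Sum.inl v) := by rw [av, hv]
  rw [h]
  exact H182.isNonarch v

/-- **A nonzero scalar which is small at all the places of `T`.** -/
theorem exists_small_nf : ∃ t : k, t ≠ 0 ∧ ∀ p : T, av T p t < 1 := by
  rcases T.eq_empty_or_nonempty with rfl | ⟨p₀, hp₀⟩
  · exact ⟨1, one_ne_zero, fun p => absurd p.2 (Finset.notMem_empty _)⟩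
  have h1 : ∀ p : Pl k, ∃ z : k, z ≠ 0 ∧ plAbv p z < 1 := by
    intro p
    obtain ⟨x, hx0, hx1⟩ := plAbv_nontrivial (F := k) p
    rcases lt_or_gt_of_ne hx1 with h | h
    · exact ⟨x, hx0, h⟩
    · refine ⟨x⁻¹, inv_ne_zero hx0, ?_⟩
      rw [map_inv₀]
      exact inv_lt_one_of_one_lt₀ h
  choose z hz0 hz1 using h1
  obtain ⟨f, hf⟩ := approx (T : Set (Pl k)) T.finite_toSet z
    (fun p => min (plAbv p (z p)) (1 - plAbv p (z p)))
    (fun p => lt_min ((plAbv p).pos (hz0 p)) (by linarith [hz1 p]))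
  refine ⟨f, ?_, fun p => ?_⟩
  · rintro rfl
    have h2 := (hf p₀ hp₀).trans_le (min_le_left _ _)
    rw [zero_sub, AbsoluteValue.map_neg] at h2
    exact lt_irrefl _ h2
  · have h2 := (hf p.1 p.2).trans_le (min_le_right _ _)
    have h3 : plAbv p.1 f ≤ plAbv p.1 (f - z p.1) + plAbv p.1 (z p.1) := by
      have := (plAbv p.1).add_le (f - z p.1) (z p.1)
      rwa [sub_add_cancel] at this
    change plAbv p.1 f < 1
    linarith

variable [Nonempty T]

/-- **The neighbourhoods in the letters `nm`.** -/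
theorem eventually_iff_nm {x₀ : D} {P : D → Prop} : (∀ᶠ x in @nhds D (topD B (av T)) x₀, P x) ↔
    ∃ ε : ℝ, 0 < ε ∧ ∀ x, (∀ p ∈ T, nm B p (x - x₀) < ε) → P x := by
  rw [eventually_iff]
  constructor
  · rintro ⟨ε, hε, h⟩
    exact ⟨ε, hε, fun x hx => h x fun p j => nm_lt_coord B p.1 (hx p.1 p.2) j⟩
  · rintro ⟨ε, hε, h⟩
    refine ⟨ε / (N + 1), by positivity, fun x hx => h x fun p hp => ?_⟩
    have h1 : nm B p (x - x₀) ≤ ∑ _i : Fin N, ε / (N + 1) :=
      Finset.sum_le_sum fun i _ => (hx ⟨p, hp⟩ i).le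
    rw [Finset.sum_const, Finset.card_univ, Fintype.card_fin, nsmul_eq_mul] at h1
    refine h1.trans_lt ?_
    rw [mul_div_assoc', div_lt_iff₀ (by positivity)]
    nlinarith

theorem mem_nhds_iff_nm {x₀ : D} {U : Set D} : U ∈ @nhds D (topD B (av T)) x₀ ↔
    ∃ ε : ℝ, 0 < ε ∧ ∀ x, (∀ p ∈ T, nm B p (x - x₀) < ε) → x ∈ U :=
  eventually_iff_nm B T (P := fun x => x ∈ U)

/-- The elements close to `x₀` at the places of `T`. -/
theorem ball_mem {x₀ : D} {ε : ℝ} (hε : 0 < ε) :
    {x : D | ∀ p ∈ T, nm B p (x - x₀) < ε} ∈ @nhds D (topD B (av T)) x₀ :=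
  (mem_nhds_iff_nm B T).mpr ⟨ε, hε, fun _ hx => hx⟩

/-- A lower bound for the radii at the places of `T`. -/
theorem exists_radius {η : Pl k → ℝ} (hη : ∀ p, 0 < η p) :
    ∃ ε : ℝ, 0 < ε ∧ ∀ p ∈ T, ε ≤ η p := by
  obtain ⟨p0⟩ := ‹Nonempty T›
  obtain ⟨q, hq, hmin⟩ := T.exists_min_image η ⟨p0.1, p0.2⟩
  exact ⟨η q, hη q, hmin⟩

/-- **`PF` at a subset of `T` in the letters of the topology.** -/
theorem eventually_of_pf {G M : Set D} {S : Set (Pl k)} (hS : S ⊆ T) (h : PF B G M S) :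
    ∀ᶠ g in @nhds D (topD B (av T)) 1, g ∈ G → g ∈ M := by
  obtain ⟨η, hη, hM⟩ := h
  obtain ⟨ε, hε, hle⟩ := exists_radius T hη
  refine (eventually_iff_nm B T).mpr ⟨ε, hε, fun x hx hG => hM x hG fun p hp => ?_⟩
  exact (hx p (hS hp)).trans_le (hle p (hS hp))

theorem pf_of_eventually {G M : Set D} (h : ∀ᶠ g in @nhds D (topD B (av T)) 1, g ∈ G → g ∈ M) :
    PF B G M T := by
  obtain ⟨ε, hε, hM⟩ := (eventually_iff_nm B T).mp h
  exact ⟨fun _ => ε, fun _ => hε, fun g hG hg => hM g hg hG⟩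

theorem pf_iff {G M : Set D} :
    PF B G M T ↔ ∀ᶠ g in @nhds D (topD B (av T)) 1, g ∈ G → g ∈ M :=
  ⟨eventually_of_pf B T subset_rfl, pf_of_eventually B T⟩

/-- The elements close to one at the places of `Tdiv`. -/
theorem eventually_nr (hT : Tdiv k K D ⊆ T) {ε : ℝ} (hε : 0 < ε) :
    ∀ᶠ x in @nhds D (topD B (av T)) 1, ∀ u : Dˣ, (u : D) = x → Nr k K B ε u := by
  refine (eventually_iff_nm B T).mpr ⟨ε, hε, fun x hx u hu p hp => ?_⟩
  rw [hu]
  exact hx p (hT hp)

/-- **All the instances at once** (the ring topology, for every finite nonempty set of places). -/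
theorem inst_D : @IsTopologicalDivisionRing D _ (topD B (av T)) := isTopologicalDivisionRing B _

theorem inst_na (hT : ∀ p ∈ T, ∃ v : HeightOneSpectrum (𝓞 k), p = Sum.inl v) :
    @NonarchimedeanAddGroup D _ (topD B (av T)) := nonarchimedeanAddGroup B _ (av_nonarch hT)

theorem inst_star [StarRing D] (hst : ∀ (c : k) (x : D), star (c • x) = c • star x) :
    @ContinuousStar D (topD B (av T)) _ := continuousStar B _ hst

/-- 439's hypothesis `hK`. -/
theorem inst_norm [StarRing K] [IsScalarTower k K D]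
    (hfix : ∀ c : k, star (algebraMap k K c) = algebraMap k K c) (O : Set K)
    (hO : O ∈ @nhds K (topI K (topD B (av T))) 0) (S : Finset K) :
    ∃ ν ∈ O, ν ≠ 0 ∧ ν * star ν ∉ S := by
  obtain ⟨t, ht0, ht⟩ := exists_small_nf T
  exact exists_norm_notMem B (av T) ht0 ht hfix O hO S

/-- Small scalars. -/
theorem inst_small (O : Set D) (hO : O ∈ @nhds D (topD B (av T)) 0) :
    ∃ c : k, c ≠ 0 ∧ algebraMap k D c ∈ O := by
  obtain ⟨t, ht0, ht⟩ := exists_small_nf T
  exact exists_small B (av T) ht0 ht O hO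

end Vale.Agent.P011.H775.Top
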