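import Vale.Agent.P011.H775.Odd.TopMod
import Vale.Agent.P011.H775.Odd.TopNF
import Vale.Agent.P011.H677.GW.Frame

/-!
**The bridge to the filters `nb k A`** (the neighbourhoods of one in the module topology): the
topology of `k` given by a finite set of absolute values, and for number fields by a finite set `T`
of places.
-/

open Module Topology Filter NumberField IsDedekindDomain

set_option linter.style.haveILetI false
set_option linter.unusedSectionVars false

namespace Vale.Agent.P011.H775.Top

open Vale.Agent.P011.Arith Vale.Agent.P011.Even Vale.Agent.P011.Two Vale.Agent.P011.One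
  Vale.Agent.P011.H518 Vale.Agent.P011.H677.GW

section general

variable {k D : Type} [Field k] [DivisionRing D] [Algebra k D] {ι κ : Type*} [Fintype ι]
  [Fintype κ] [Nonempty ι] (B : Basis κ k D) (a : ι → AbsoluteValue k ℝ)

/-- **`nb k D` is the filter of the neighbourhoods of one of `topD B a`.** -/
theorem nb_eq : (letI := topk a; nb k D) = @nhds D (topD B a) 1 := nhds_moduleTopology B a 1

theorem eventually_nb_iff {P : D → Prop} : (letI := topk a; ∀ᶠ x in nb k D, P x) ↔
    ∃ ε : ℝ, 0 < ε ∧ ∀ x, (∀ i j, a i (B.repr (x - 1) j) < ε) → P x := by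
  have h := nb_eq B a
  letI := topk a
  change (∀ᶠ x in nb k D, P x) ↔ _
  rw [show nb k D = @nhds D (topD B a) 1 from h]
  exact eventually_iff B a

end general

section nf

variable {k D : Type} [Field k] [NumberField k] [DivisionRing D] [Algebra k D] {N : ℕ}
  (B : Basis (Fin N) k D) (T : Finset (Pl k)) [Nonempty T]

/-- **Number fields: `nb k D` in the letters `nm`.** -/
theorem eventually_nb_iff_nm {P : D → Prop} : (letI := topk (av T); ∀ᶠ x in nb k D, P x) ↔
    ∃ ε : ℝ, 0 < ε ∧ ∀ x, (∀ p ∈ T, nm B p (x - 1) < ε) → P x := by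
  have h := nb_eq B (av T)
  letI := topk (av T)
  change (∀ᶠ x in nb k D, P x) ↔ _
  rw [show nb k D = @nhds D (topD B (av T)) 1 from h]
  exact eventually_iff_nm B T

end nf

end Vale.Agent.P011.H775.Top
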