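import Vale.Agent.P011.H775.Odd.TopFF
import Vale.Agent.P011.H961.SetG
import Vale.Agent.P011.H373.Odd.RepT

/-!
**Function fields, every characteristic: the places of `T` split in the centre, there are small
scalars, weak approximation of the unitary elements**, in the letters of `H373/Odd/RepT`.
-/

open Module Topology Filter

set_option linter.style.haveILetI false
set_option linter.unusedSectionVars false

namespace Vale.Agent.P011.H775.Top

open Vale.Agent.P011.H738 Vale.Agent.P011.H271 Vale.Agent.P011.H698 Vale.Agent.P011.H961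
  Vale.Agent.P011.H74 Vale.Agent.P011.H373.Odd

section seq

variable {k : Type} [Field k]

/-- Approximation of elements of finitely many completions by a sequence. -/
theorem exists_seq_TF (T : Finset (Place k)) (x : ∀ v : Place k, v.comp) :
    ∃ r : ℕ → k, ∀ v ∈ T, Tendsto (fun m => algebraMap k v.comp (r m)) atTop (𝓝 (x v)) := by
  choose r hr using fun m : ℕ => place_weak T (fun v => x (v : Place k))
    (η := 1 / ((m : ℝ) + 1)) (by positivity)
  refine ⟨r, fun v hv => ?_⟩
  rw [tendsto_iff_norm_sub_tendsto_zero]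
  exact squeeze_zero (fun _ => norm_nonneg _) (fun m => (hr m ⟨v, hv⟩).le)
    tendsto_one_div_add_atTop_nhds_zero_nat

end seq

section rep

variable {k K D : Type} [Field k] [Field K] [StarRing K]
  [DivisionRing D] [StarRing D] [Algebra k K] [Algebra k D] [Algebra K D] [IsScalarTower k K D]
  {N : ℕ} (B : Basis (Fin N) k D) (T : Finset (Place k)) [Nonempty T]

/-- Multiples of a fixed element by scalars tending to zero. -/
theorem tendsto_smul_TF (y : D) {c : ℕ → k}
    (hc : ∀ v ∈ T, Tendsto (fun m => v.abv (c m)) atTop (𝓝 0)) :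
    Tendsto (fun m => c m • y) atTop (@nhds D (topD B (avF T)) 0) := by
  letI := topD B (avF T)
  letI := topk (avF T)
  have h1 : Tendsto c atTop (@nhds k (topk (avF T)) 0) := by
    refine tendsto_def.mpr fun U hU => ?_
    obtain ⟨ε, hε, h⟩ := (topk_mem_nhds_iff (avF T)).mp hU
    have h2 : ∀ᶠ m in atTop, ∀ v : T, avF T v (c m) < ε :=
      eventually_all.mpr fun v => (hc v.1 v.2).eventually_lt_const hε
    filter_upwards [h2] with m hm
    exact h (c m) fun v => by rw [sub_zero]; exact hm v
  have h2 : Continuous fun c : k => c • y :=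
    continuous_lin (Basis.singleton Unit k) B (avF T) (LinearMap.toSpanSingleton k D y)
  have h3 := h2.tendsto 0
  rw [zero_smul] at h3
  exact h3.comp h1

/-- **Small symmetric central elements.** -/
theorem nd_ff (hfix : ∀ c : k, star (algebraMap k K c) = algebraMap k K c) :
    letI := topD B (avF T)
    Nd K D := by
  letI := topD B (avF T)
  intro V hV
  obtain ⟨c, hc0, hc⟩ := instF_small B T V hV
  refine ⟨algebraMap k K c, hfix c, (map_ne_zero_iff _ (algebraMap k K).injective).mpr hc0, ?_⟩
  rw [← IsScalarTower.algebraMap_apply]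
  exact hc

/-- **The places of `T` split in the centre.** -/
theorem spt_ff (hS : SetG k K D) (hT : ∀ v ∈ T, Nonempty (K →ₐ[k] v.comp)) :
    letI := topD B (avF T)
    Spt K D := by
  classical
  letI := topD B (avF T)
  obtain ⟨κ, hκ1, hκ⟩ := hS.exists_kappa
  have hfix : ∀ c : k, star (algebraMap k K c) = algebraMap k K c := hS.star_algebraMap
  -- the norm of `κ`
  obtain ⟨ν, hν⟩ : ∃ ν : k, κ * star κ = algebraMap k K ν := by
    obtain ⟨ν, hν⟩ := (hS.fix (κ * star κ)).mp (by rw [star_mul, star_star])
    exact ⟨ν, hν.symm⟩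
  have hsκ : star κ = 1 - κ := by rw [← hκ1]; ring
  -- the idempotents in the completions
  have h1 : ∀ v : Place k, ∃ x : v.comp, v ∈ T →
      algebraMap k v.comp ν - (x + x * x) * (1 - 4 * algebraMap k v.comp ν) = 0 := by
    intro v
    by_cases hv : v ∈ T
    · obtain ⟨ι⟩ := hT v hv
      have h2 : ι κ - ι (star κ) ≠ 0 := by
        rw [← map_sub]
        exact (map_ne_zero_iff _ (ι : K →+* v.comp).injective).mpr (sub_ne_zero.mpr (Ne.symm hκ))
      have h3 : ι (star κ) = 1 - ι κ := by rw [hsκ, map_sub, map_one]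
      have h4 : algebraMap k v.comp ν = ι κ * (1 - ι κ) := by
        rw [← h3, ← map_mul, hν, AlgHom.commutes]
      rw [h3] at h2
      refine ⟨-(ι κ) / (ι κ - (1 - ι κ)), fun _ => ?_⟩
      rw [h4]
      field_simp
      ring
    · exact ⟨0, fun h => absurd h hv⟩
  choose x hx using h1
  obtain ⟨r, hr⟩ := exists_seq_TF T x
  let e : ℕ → K := fun m => κ + algebraMap k K (r m) * (κ - star κ)
  have hse : ∀ m, star (e m) = star κ - algebraMap k K (r m) * (κ - star κ) := by
    intro m
    change star (κ + algebraMap k K (r m) * (κ - star κ)) = _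
    rw [star_add, star_mul', hfix, star_sub, star_star]
    ring
  refine ⟨e, fun m => ?_, ?_, ?_⟩
  · rw [hse]
    change κ + algebraMap k K (r m) * (κ - star κ) + _ = 1
    rw [← hκ1]
    ring
  · -- the Cauchy property
    intro V hV
    let y : D := algebraMap K D (κ - star κ)
    letI := topk (avF T)
    have h2 : Continuous fun c : k => c • y :=
      continuous_lin (Basis.singleton Unit k) B (avF T) (LinearMap.toSpanSingleton k D y)
    have h3 := h2.tendsto 0
    rw [zero_smul] at h3
    obtain ⟨ε, hε, hεV⟩ := (topk_mem_nhds_iff (avF T)).mp (h3 hV)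
    have h4 : ∀ v ∈ T, ∃ M, ∀ a ≥ M, ∀ b ≥ M, v.abv (r a - r b) < ε := by
      intro v hv
      have hc := (hr v hv).cauchySeq
      obtain ⟨M, hM⟩ := Metric.cauchySeq_iff.mp hc ε hε
      refine ⟨M, fun a ha b hb => ?_⟩
      rw [← norm_alg, map_sub, ← dist_eq_norm]
      exact hM a ha b hb
    choose! M hM using h4
    refine ⟨T.sup M, fun a ha b hb => ?_⟩
    have h5 : algebraMap K D (e a) - algebraMap K D (e b) = (r a - r b) • y := by
      have h6 : e a - e b = algebraMap k K (r a - r b) * (κ - star κ) := by
        change κ + algebraMap k K (r a) * (κ - star κ) -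
          (κ + algebraMap k K (r b) * (κ - star κ)) = _
        rw [map_sub]
        ring
      rw [← map_sub, h6, map_mul, ← IsScalarTower.algebraMap_apply, ← Algebra.smul_def]
    rw [h5]
    refine hεV (r a - r b) fun v => ?_
    rw [sub_zero]
    exact hM v.1 v.2 a ((Finset.le_sup v.2).trans ha) b ((Finset.le_sup v.2).trans hb)
  · -- the product tends to zero
    have h2 : ∀ m, algebraMap K D (e m * star (e m)) =
        (ν - (r m + r m * r m) * (1 - 4 * ν)) • (1 : D) := by
      intro m
      have h3 : e m * star (e m) = algebraMap k K (ν - (r m + r m * r m) * (1 - 4 * ν)) := by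
        rw [hse]
        change (κ + algebraMap k K (r m) * (κ - star κ)) * _ = _
        rw [map_sub, map_mul, map_sub, map_one, map_mul, map_ofNat, map_add, map_mul, ← hν, hsκ]
        ring
      rw [h3, ← IsScalarTower.algebraMap_apply, Algebra.algebraMap_eq_smul_one]
    simp only [h2]
    refine tendsto_smul_TF B T 1 fun v hv => ?_
    have h3 := hr v hv
    have h4 : Tendsto (fun m => algebraMap k v.comp ν - (algebraMap k v.comp (r m) +
        algebraMap k v.comp (r m) * algebraMap k v.comp (r m)) *
          (1 - 4 * algebraMap k v.comp ν)) atTop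
        (𝓝 (algebraMap k v.comp ν - (x v + x v * x v) * (1 - 4 * algebraMap k v.comp ν))) :=
      tendsto_const_nhds.sub ((h3.add (h3.mul h3)).mul_const _)
    rw [hx v hv] at h4
    have h5 := h4.norm
    rw [norm_zero] at h5
    refine h5.congr fun m => ?_
    rw [← norm_alg, map_sub, map_mul, map_sub, map_one, map_mul, map_ofNat, map_add, map_mul]

/-- Convergence in the topology of `T` in the letters of the places. -/
theorem tendsto_of_sm {f : ℕ → D} {x₀ : D}
    (h : ∀ v ∈ T, ∀ i, Tendsto (fun m => v.abv (B.repr (f m - x₀) i)) atTop (𝓝 0)) :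
    Tendsto f atTop (@nhds D (topD B (avF T)) x₀) := by
  refine tendsto_def.mpr fun U hU => ?_
  obtain ⟨ε, hε, hs⟩ := (mem_nhds_iff_sm B T).mp hU
  have h2 : ∀ᶠ m in atTop, ∀ v : T, ∀ i, v.1.abv (B.repr (f m - x₀) i) < ε :=
    eventually_all.mpr fun v => eventually_all.mpr fun i =>
      (h v.1 v.2 i).eventually_lt_const hε
  filter_upwards [h2] with m hm
  exact hs (f m) fun v hv i => hm ⟨v, hv⟩ i

theorem sm_of_tendsto {f : ℕ → D} {x₀ : D} (h : Tendsto f atTop (@nhds D (topD B (avF T)) x₀))
    {v : Place k} (hv : v ∈ T) (i : Fin N) :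
    Tendsto (fun m => v.abv (B.repr (f m - x₀) i)) atTop (𝓝 0) := by
  have h1 := (tendsto_iff B (avF T)).mp h
  exact squeeze_zero (fun m => v.abv.nonneg _) (fun m => coord_le B (avF T) _ ⟨v, hv⟩ i) h1

end rep

end Vale.Agent.P011.H775.Top
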