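import Vale.Agent.P011.H775.Odd.RepFF

/-!
**Function fields, every characteristic: weak approximation of the unitary elements at the places
of `T`**, in the letters of `H373/Odd/RepT`.
-/

open Module Topology Filter

set_option linter.style.haveILetI false
set_option linter.unusedSectionVars false

namespace Vale.Agent.P011.H775.Top

open Vale.Agent.P011.H738 Vale.Agent.P011.H271 Vale.Agent.P011.H698 Vale.Agent.P011.H961
  Vale.Agent.P011.H74 Vale.Agent.P011.H373.Odd

variable {k K D : Type} [Field k] [Field K] [StarRing K]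
  [DivisionRing D] [StarRing D] [Algebra k K] [Algebra k D] [Algebra K D] [IsScalarTower k K D]
  {N n : ℕ} (B : Basis (Fin N) k D) (T : Finset (Place k)) [Nonempty T]

theorem eqF_jT [StarLinR k D] (v : Place k) (y : D) (i : Fin N) :
    eqF B v.comp ((bcrT B v.comp).j y) i = algebraMap k v.comp (B.repr y i) :=
  (bcrT B v.comp).φ_eq y i

/-- Convergence in the base change. -/
theorem tendsto_BR {v : Place k} {f : ℕ → BR B v.comp} {X : BR B v.comp}
    (h : ∀ i, Tendsto (fun m => eqF B v.comp (f m) i) atTop (𝓝 (eqF B v.comp X i))) :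
    Tendsto f atTop (𝓝 X) := by
  have hi : IsInducing fun x : BR B v.comp => eqF B v.comp x := ⟨rfl⟩
  rw [hi.tendsto_nhds_iff]
  exact tendsto_pi_nhds.mpr h

theorem t2_BR (v : Place k) : T2Space (BR B v.comp) :=
  T2Space.of_injective_continuous (eqF B v.comp).injective (cont_eqF B v.comp)

theorem continuous_starBR [StarLinR k D] (v : Place k) :
    Continuous fun x : BR B v.comp => star x := by
  classical
  refine cont_into B v.comp _ ?_
  have h : ∀ x : BR B v.comp, eqF B v.comp (star x) =
      ∑ i, eqF B v.comp x i • eqF B v.comp (star ((eqF B v.comp).symm (Pi.single i 1))) := by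
    intro x
    have hx : x = ∑ i, eqF B v.comp x i • (eqF B v.comp).symm (Pi.single i 1) := by
      apply (eqF B v.comp).injective
      rw [map_sum]
      funext l
      rw [Finset.sum_apply, Finset.sum_eq_single l]
      · simp
      · intro i _ hi
        simp [hi.symm]
      · simp
    conv_lhs => rw [hx]
    rw [star_sum, map_sum]
    refine Finset.sum_congr rfl fun i _ => ?_
    rw [(bcrT B v.comp).star_smul, map_smul]
  rw [show (fun x : BR B v.comp => eqF B v.comp (star x)) = _ from funext h]
  refine continuous_finsetSum _ fun i _ => ?_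
  have h1 : Continuous fun x : BR B v.comp => eqF B v.comp x i :=
    (continuous_apply i).comp (cont_eqF B v.comp)
  exact h1.smul continuous_const

/-- The limit of a Cauchy sequence at a place of `T`. -/
theorem exists_lim_of_cau [StarLinR k D] {w : ℕ → D} (hw : letI := topD B (avF T); Cau w)
    {v : Place k} (hv : v ∈ T) :
    ∃ X : BR B v.comp, Tendsto (fun m => (bcrT B v.comp).j (w m)) atTop (𝓝 X) := by
  have hc : ∀ i, CauchySeq fun m => algebraMap k v.comp (B.repr (w m) i) := by
    intro i
    refine Metric.cauchySeq_iff.mpr fun ε hε => ?_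
    obtain ⟨M, hM⟩ := hw {x | ∀ v ∈ T, Sm B v ε (x - 0)} (ball_mem_sm B T hε)
    refine ⟨M, fun a ha b hb => ?_⟩
    have h1 := hM a ha b hb v hv i
    rw [sub_zero, map_sub, Finsupp.sub_apply, ← norm_alg, map_sub, ← dist_eq_norm] at h1
    exact h1
  choose c hc' using fun i => cauchySeq_tendsto_of_complete (hc i)
  refine ⟨(eqF B v.comp).symm c, tendsto_BR B fun i => ?_⟩
  rw [LinearEquiv.apply_symm_apply]
  refine (hc' i).congr fun m => ?_
  rw [eqF_jT]

/-- Convergent sequences at a place of `T`. -/
theorem tendsto_j_of_tendsto [StarLinR k D] {f : ℕ → D} {x₀ : D}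
    (h : Tendsto f atTop (@nhds D (topD B (avF T)) x₀)) {v : Place k} (hv : v ∈ T) :
    Tendsto (fun m => (bcrT B v.comp).j (f m)) atTop (𝓝 ((bcrT B v.comp).j x₀)) := by
  refine tendsto_BR B fun i => ?_
  have h1 := sm_of_tendsto B T h hv i
  rw [eqF_jT, tendsto_iff_norm_sub_tendsto_zero]
  refine h1.congr fun m => ?_
  rw [eqF_jT, ← map_sub, norm_alg, map_sub, Finsupp.sub_apply]

/-- **Weak approximation of the unitary elements**, for every finite set of places. -/
theorem wu_ff [Infinite k] (hS : SetG k K D) (hdeg : finrank K D = n ^ 2) :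
    letI := topD B (avF T)
    WU D := by
  classical
  letI := topD B (avF T)
  have hsm := hS.starModule
  have hA : Anis k K D n := hS.anis hdeg
  have hSL : StarLinR k D := ⟨hS.star_smulk⟩
  intro w hw h1 h2
  have hex : ∀ v : T, ∃ X : BR B (v : Place k).comp,
      Tendsto (fun m => (bcrT B (v : Place k).comp).j (w m)) atTop (𝓝 X) ∧
        X * star X = 1 ∧ star X * X = 1 := by
    intro v
    have ht2 := t2_BR B (v : Place k)
    obtain ⟨X, hX⟩ := exists_lim_of_cau B T hw v.2
    have hsX : Tendsto (fun m => (bcrT B (v : Place k).comp).j (star (w m))) atTop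
        (𝓝 (star X)) := by
      have h3 := ((continuous_starBR B (v : Place k)).tendsto X).comp hX
      refine h3.congr fun m => ?_
      rw [Function.comp_apply, (bcrT B (v : Place k).comp).j_star]
    refine ⟨X, hX, ?_, ?_⟩
    · have h3 := hX.mul hsX
      have h4 := tendsto_j_of_tendsto B T h1 v.2
      rw [map_one] at h4
      refine tendsto_nhds_unique (h3.congr fun m => ?_) h4
      rw [map_mul]
    · have h3 := hsX.mul hX
      have h4 := tendsto_j_of_tendsto B T h2 v.2
      rw [map_one] at h4
      refine tendsto_nhds_unique (h3.congr fun m => ?_) h4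
      rw [map_mul]
  choose X hX hX1 hX2 using hex
  choose g hg using fun m : ℕ => weak_unitary hA B T X hX1 hX2 (ε := 1 / ((m : ℝ) + 1))
    (by positivity)
  refine ⟨fun m => (((g m : UA D) : Dˣ) : D), fun m => ?_, tendsto_of_sm B T fun v hv i => ?_⟩
  · exact ua_mul_star (g m)
  · have h3 : Tendsto (fun m => eqF B v.comp ((bcrT B v.comp).j (((g m : UA D) : Dˣ) : D) -
        X ⟨v, hv⟩) i) atTop (𝓝 0) := by
      rw [tendsto_zero_iff_norm_tendsto_zero]
      exact squeeze_zero (fun _ => norm_nonneg _) (fun m => (hg m ⟨v, hv⟩ i).le)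
        tendsto_one_div_add_atTop_nhds_zero_nat
    have h4 : Tendsto (fun m => eqF B v.comp ((bcrT B v.comp).j (w m)) i -
        eqF B v.comp (X ⟨v, hv⟩) i) atTop (𝓝 0) := by
      have h5 := (((continuous_apply i).comp (cont_eqF B v.comp)).tendsto (X ⟨v, hv⟩)).comp
        (hX ⟨v, hv⟩)
      have h6 := h5.sub_const (eqF B v.comp (X ⟨v, hv⟩) i)
      simp only [Function.comp_apply, sub_self] at h6
      exact h6
    have h5 := (h3.sub h4).norm
    rw [sub_zero, norm_zero] at h5
    refine h5.congr fun m => ?_
    have h7 : B.repr ((((g m : UA D) : Dˣ) : D) - w m - 0) i =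
        B.repr (((g m : UA D) : Dˣ) : D) i - B.repr (w m) i := by
      rw [sub_zero, map_sub, Finsupp.sub_apply]
    rw [map_sub, Pi.sub_apply, sub_sub_sub_cancel_right, eqF_jT, eqF_jT, ← map_sub, norm_alg, ← h7]

end Vale.Agent.P011.H775.Top
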