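import Vale.Agent.P011.H775.Odd.TSet
import Vale.Agent.P011.H775.Odd.TopMod
import Vale.Agent.P011.H373.Odd.RepT
import Vale.Agent.P011.Two.Cv

/-!
**Number fields: the places of `T` split in the centre and there are small scalars**, in the
letters of `H373/Odd/RepT`.
-/

open Module Topology Filter NumberField IsDedekindDomain

set_option linter.style.haveILetI false
set_option linter.unusedSectionVars false

namespace Vale.Agent.P011.H775.Top

open Vale.Agent.P011.Arith Vale.Agent.P011.Even Vale.Agent.P011.Two Vale.Agent.P011.One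
  Vale.Agent.P011.H373.Odd

section seq

variable {k : Type} [Field k] [NumberField k]

/-- Approximation of elements of finitely many completions by a sequence. -/
theorem exists_seq_T (T : Finset (Pl k)) (x : ∀ v : HeightOneSpectrum (𝓞 k), v.adicCompletion k) :
    ∃ r : ℕ → k, ∀ v : HeightOneSpectrum (𝓞 k), (Sum.inl v : Pl k) ∈ T →
      Tendsto (fun m => algebraMap k (v.adicCompletion k) (r m)) atTop (𝓝 (x v)) := by
  choose y hy using fun v => Two.exists_seq v (x v)
  let z : ℕ → Pl k → k := fun m p => match p with
    | .inl v => y v m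
    | .inr _ => 0
  choose r hr using fun m : ℕ => approx (T : Set (Pl k)) T.finite_toSet (z m)
    (fun _ => 1 / ((m : ℝ) + 1)) (fun _ => by positivity)
  refine ⟨r, fun v hv => ?_⟩
  have h1 : Tendsto (fun m => algebraMap k (v.adicCompletion k) (r m - y v m)) atTop (𝓝 0) := by
    rw [tendsto_zero_iff_norm_tendsto_zero]
    refine squeeze_zero (fun _ => norm_nonneg _) (fun m => ?_)
      tendsto_one_div_add_atTop_nhds_zero_nat
    rw [← plAbv_norm]
    exact (hr m (Sum.inl v) hv).le
  have h2 := h1.add (hy v)
  rw [zero_add] at h2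
  refine h2.congr fun m => ?_
  rw [← map_add, sub_add_cancel]

end seq

section rep

variable {k K D : Type} [Field k] [NumberField k] [Field K] [StarRing K]
  [DivisionRing D] [StarRing D] [Algebra k K] [Algebra k D] [Algebra K D] [IsScalarTower k K D]
  {d : kˣ} {s : K} {N : ℕ} (B : Basis (Fin N) k D) (T : Finset (Pl k)) [Nonempty T]

/-- Multiples of a fixed element by scalars tending to zero. -/
theorem tendsto_smul_T (y : D) {c : ℕ → k}
    (hc : ∀ p ∈ T, Tendsto (fun m => plAbv p (c m)) atTop (𝓝 0)) :
    Tendsto (fun m => c m • y) atTop (@nhds D (topD B (av T)) 0) := by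
  letI := topD B (av T)
  letI := topk (av T)
  have h1 : Tendsto c atTop (@nhds k (topk (av T)) 0) := by
    refine tendsto_def.mpr fun U hU => ?_
    obtain ⟨ε, hε, h⟩ := (topk_mem_nhds_iff (av T)).mp hU
    have h2 : ∀ᶠ m in atTop, ∀ p : T, av T p (c m) < ε :=
      eventually_all.mpr fun p => (hc p.1 p.2).eventually_lt_const hε
    filter_upwards [h2] with m hm
    exact h (c m) fun p => by rw [sub_zero]; exact hm p
  have h2 : Continuous fun c : k => c • y :=
    continuous_lin (Basis.singleton Unit k) B (av T) (LinearMap.toSpanSingleton k D y)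
  have h3 := h2.tendsto 0
  rw [zero_smul] at h3
  exact h3.comp h1

/-- **Small symmetric central elements.** -/
theorem nd_nf (hfix : ∀ c : k, star (algebraMap k K c) = algebraMap k K c) :
    letI := topD B (av T)
    Nd K D := by
  letI := topD B (av T)
  intro V hV
  obtain ⟨c, hc0, hc⟩ := inst_small B T V hV
  refine ⟨algebraMap k K c, hfix c, (map_ne_zero_iff _ (algebraMap k K).injective).mpr hc0, ?_⟩
  rw [← IsScalarTower.algebraMap_apply]
  exact hc

/-- **The places of `T` split in the centre.** -/
theorem spt_nf (hS : Setting k K D d s)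
    (hT : ∀ p ∈ T, ∃ v : HeightOneSpectrum (𝓞 k), p = Sum.inl v ∧ d ∈ LS (v.valuation k)) :
    letI := topD B (av T)
    Spt K D := by
  classical
  letI := topD B (av T)
  have hK0 : CharZero K := charZero_of_injective_algebraMap (algebraMap k K).injective
  have hd0 : (d : k) ≠ 0 := d.ne_zero
  -- the roots in the completions
  have h1 : ∀ v : HeightOneSpectrum (𝓞 k), ∃ x : v.adicCompletion k,
      (Sum.inl v : Pl k) ∈ T → x * x * algebraMap k (v.adicCompletion k) (d : k) = 1 := by
    intro v
    by_cases hv : (Sum.inl v : Pl k) ∈ T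
    · obtain ⟨v', hv', hd⟩ := hT _ hv
      obtain rfl := Sum.inl_injective hv'
      obtain ⟨θ, hθ⟩ := (isSquare_iff v d).mpr hd
      have hθ0 : θ ≠ 0 := by
        rintro rfl
        rw [mul_zero] at hθ
        exact (map_ne_zero_iff _ (algebraMap k (v.adicCompletion k)).injective).mpr hd0 hθ
      refine ⟨θ⁻¹, fun _ => ?_⟩
      rw [hθ]
      field_simp
    · exact ⟨0, fun h => absurd h hv⟩
  choose x hx using h1
  obtain ⟨r, hr⟩ := exists_seq_T T x
  let e : ℕ → K := fun m => (1 + algebraMap k K (r m) * s) / 2
  have hfix : ∀ c : k, star (algebraMap k K c) = algebraMap k K c := fun c =>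
    (hS.fix _).mpr ⟨c, rfl⟩
  have hse : ∀ m, star (e m) = (1 - algebraMap k K (r m) * s) / 2 := by
    intro m
    change star ((1 + algebraMap k K (r m) * s) / 2) = _
    rw [star_div₀, star_add, star_one, star_mul', hfix, hS.star_s, star_ofNat]
    ring
  refine ⟨e, fun m => ?_, ?_, ?_⟩
  · rw [hse]
    change (1 + algebraMap k K (r m) * s) / 2 + _ = 1
    field_simp
    ring
  · -- the Cauchy property
    intro V hV
    let y : D := algebraMap K D (s / 2)
    letI := topk (av T)
    have h2 : Continuous fun c : k => c • y :=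
      continuous_lin (Basis.singleton Unit k) B (av T) (LinearMap.toSpanSingleton k D y)
    have h3 := h2.tendsto 0
    rw [zero_smul] at h3
    obtain ⟨ε, hε, hεV⟩ := (topk_mem_nhds_iff (av T)).mp (h3 hV)
    have h4 : ∀ p ∈ T, ∃ M, ∀ a ≥ M, ∀ b ≥ M, plAbv p (r a - r b) < ε := by
      intro p hp
      obtain ⟨v, rfl, -⟩ := hT p hp
      have hc := (hr v hp).cauchySeq
      obtain ⟨M, hM⟩ := Metric.cauchySeq_iff.mp hc ε hε
      refine ⟨M, fun a ha b hb => ?_⟩
      rw [plAbv_norm, map_sub, ← dist_eq_norm]
      exact hM a ha b hb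
    choose! M hM using h4
    refine ⟨T.sup M, fun a ha b hb => ?_⟩
    have h5 : algebraMap K D (e a) - algebraMap K D (e b) = (r a - r b) • y := by
      have h6 : e a - e b = algebraMap k K (r a - r b) * (s / 2) := by
        change (1 + algebraMap k K (r a) * s) / 2 - (1 + algebraMap k K (r b) * s) / 2 = _
        rw [map_sub]
        ring
      rw [← map_sub, h6, map_mul, ← IsScalarTower.algebraMap_apply, ← Algebra.smul_def]
    rw [h5]
    refine hεV (r a - r b) fun p => ?_
    rw [sub_zero]
    exact hM p.1 p.2 a ((Finset.le_sup p.2).trans ha) b ((Finset.le_sup p.2).trans hb)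
  · -- the product tends to zero
    have h2 : ∀ m, algebraMap K D (e m * star (e m)) =
        ((1 - r m * r m * (d : k)) / 4) • (1 : D) := by
      intro m
      have h3 : e m * star (e m) = algebraMap k K ((1 - r m * r m * (d : k)) / 4) := by
        rw [hse]
        change (1 + algebraMap k K (r m) * s) / 2 * _ = _
        rw [map_div₀, map_sub, map_one, map_mul, map_mul, ← hS.sq, map_ofNat]
        ring
      rw [h3, ← IsScalarTower.algebraMap_apply, Algebra.algebraMap_eq_smul_one]
    simp only [h2]
    refine tendsto_smul_T B T 1 fun p hp => ?_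
    obtain ⟨v, rfl, -⟩ := hT p hp
    have h3 := hr v hp
    have h4 : Tendsto (fun m => (1 - algebraMap k (v.adicCompletion k) (r m) *
        algebraMap k (v.adicCompletion k) (r m) * algebraMap k (v.adicCompletion k) (d : k)) / 4)
        atTop (𝓝 ((1 - x v * x v * algebraMap k (v.adicCompletion k) (d : k)) / 4)) :=
      (tendsto_const_nhds.sub ((h3.mul h3).mul_const _)).div_const _
    rw [hx v hp, sub_self, zero_div] at h4
    have h5 := h4.norm
    rw [norm_zero] at h5
    refine h5.congr fun m => ?_
    rw [plAbv_norm, map_div₀, map_sub, map_one, map_mul, map_mul, map_ofNat]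

end rep

end Vale.Agent.P011.H775.Top
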