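import Vale.Agent.P011.H775.Odd.TopNF
import Vale.Agent.P011.Pow.RamSplit
import Vale.Agent.P011.Pow.CentT
import Vale.Agent.P011.H63.SplitNF

/-!
**Number fields: the set `T`**: the finite places at which the division algebra is not split,
together with one finite place which splits in `K`.  All the places of `T` split in `K`.
-/

open Module Topology Filter NumberField IsDedekindDomain

set_option linter.unusedSectionVars false

namespace Vale.Agent.P011.H775.Top

open Vale.Agent.P011.Arith Vale.Agent.P011.Even Vale.Agent.P011.Two Vale.Agent.P011.One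
  Vale.Agent.P011.Pow

variable {k K D : Type} [Field k] [NumberField k] [Field K] [NumberField K] [StarRing K]
  [DivisionRing D] [StarRing D] [Algebra k K] [Algebra k D] [Algebra K D] [IsScalarTower k K D]
  {d : kˣ} {s : K}

/-- The places at which the algebra is not split are split in `K`. -/
theorem ls_of_ram (hS : Setting k K D d s) {n : ℕ} (hn : 0 < n) (hdeg : finrank K D = n ^ 2)
    {v : HeightOneSpectrum (𝓞 k)} (hv : v ∈ Ram k K D n) : d ∈ LS (v.valuation k) := by
  obtain ⟨w, hw, hns⟩ := hv
  by_contra h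
  exact hns (spl_nonsplit hS hn hdeg h hw)

/-- An embedding of `K` in the completion at a place which splits. -/
theorem nonempty_of_ls (hS : Setting k K D d s) {v : HeightOneSpectrum (𝓞 k)}
    (hv : d ∈ LS (v.valuation k)) : Nonempty (K →ₐ[k] v.adicCompletion k) := by
  obtain ⟨θ, hθ⟩ := (isSquare_iff v d).mpr hv
  obtain ⟨φ, -⟩ := exists_lift hS (F := v.adicCompletion k) (θ := θ) (by rw [hθ, sq])
  exact ⟨φ⟩

/-- **The set of places.**  It can be taken outside a given finite set up to the places at which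
the algebra is not split. -/
theorem exists_T (hS : Setting k K D d s) {n : ℕ} (hn : 2 ≤ n) (hdeg : finrank K D = n ^ 2) :
    ∃ T : Finset (Pl k), T.Nonempty ∧
      (∀ p ∈ T, ∃ v : HeightOneSpectrum (𝓞 k), p = Sum.inl v ∧ d ∈ LS (v.valuation k) ∧
        Nonempty (K →ₐ[k] v.adicCompletion k)) ∧
      Tdiv k K D ⊆ T ∧ ∀ v ∈ Ram k K D n, (Sum.inl v : Pl k) ∈ T := by
  classical
  have := hS.fin
  have := hS.cen
  have hR : (Ram k K D n).Finite := ram_finite (by omega) hdeg
  obtain ⟨v₁, hv₁, hd₁⟩ := H63.exists_ls d (Ram k K D n) hR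
  have hT : ∀ v ∈ Ram k K D n, (Sum.inl v : Pl k) ∈
      (insert v₁ hR.toFinset).image (Sum.inl : HeightOneSpectrum (𝓞 k) → Pl k) := fun v hv =>
    Finset.mem_image.mpr ⟨v, Finset.mem_insert_of_mem (hR.mem_toFinset.mpr hv), rfl⟩
  refine ⟨(insert v₁ hR.toFinset).image Sum.inl, ?_, ?_, ?_, hT⟩
  · exact (Finset.insert_nonempty _ _).image _
  · intro p hp
    obtain ⟨v, hv, rfl⟩ := Finset.mem_image.mp hp
    have h1 : d ∈ LS (v.valuation k) := by
      rcases Finset.mem_insert.mp hv with rfl | h
      · exact hd₁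
      · exact ls_of_ram hS (by omega) hdeg (hR.mem_toFinset.mp h)
    exact ⟨v, rfl, h1, nonempty_of_ls hS h1⟩
  · intro p hp
    obtain ⟨v, hv, -⟩ := id hp
    rw [hv] at hp ⊢
    exact hT v (tdiv_ram hn hdeg hp)

end Vale.Agent.P011.H775.Top
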