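import Mathlib

/-!
**The topology of a finite dimensional division algebra given by finitely many absolute values of
the base field.**  `k` is a field with a finite nonempty family `a` of absolute values, `D` is a
division algebra over `k` with a finite basis `B`; the size of an element is the largest absolute
value of a coordinate.  The operations of `D`, the inverse included, are continuous; no completion
is used.  Everything is independent of the kind of the places.
-/

open Module Topology Filter

set_option linter.style.haveILetI false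
set_option linter.unusedSectionVars false
set_option warn.classDefReducibility false

namespace Vale.Agent.P011.H775.Top

section size

variable {k D : Type*} [Field k] [DivisionRing D] [Algebra k D] {ι κ : Type*} [Fintype ι]
  [Fintype κ] (B : Basis κ k D) (a : ι → AbsoluteValue k ℝ)

/-- The size of an element. -/
noncomputable def sz (x : D) : ℝ := ‖(fun p : ι × κ => a p.1 (B.repr x p.2) : ι × κ → ℝ)‖

theorem sz_nonneg (x : D) : 0 ≤ sz B a x := norm_nonneg _

theorem sz_le_iff {x : D} {r : ℝ} (hr : 0 ≤ r) : sz B a x ≤ r ↔ ∀ i j, a i (B.repr x j) ≤ r := by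
  rw [sz, pi_norm_le_iff_of_nonneg hr]
  constructor
  · intro h i j
    exact (le_abs_self _).trans (h (i, j))
  · intro h p
    rw [Real.norm_eq_abs, abs_of_nonneg (AbsoluteValue.nonneg _ _)]
    exact h p.1 p.2

theorem sz_lt_iff {x : D} {r : ℝ} (hr : 0 < r) : sz B a x < r ↔ ∀ i j, a i (B.repr x j) < r := by
  rw [sz, pi_norm_lt_iff hr]
  constructor
  · intro h i j
    exact (le_abs_self _).trans_lt (h (i, j))
  · intro h p
    rw [Real.norm_eq_abs, abs_of_nonneg (AbsoluteValue.nonneg _ _)]
    exact h p.1 p.2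

theorem coord_le (x : D) (i : ι) (j : κ) : a i (B.repr x j) ≤ sz B a x :=
  (sz_le_iff B a (sz_nonneg B a x)).mp le_rfl i j

theorem sz_zero : sz B a 0 = 0 := by
  refine le_antisymm ((sz_le_iff B a le_rfl).mpr fun i j => ?_) (sz_nonneg B a 0)
  rw [map_zero, Finsupp.zero_apply, map_zero]

theorem sz_neg (x : D) : sz B a (-x) = sz B a x := by
  unfold sz
  congr 1
  funext p
  rw [map_neg, Finsupp.neg_apply, AbsoluteValue.map_neg]

theorem sz_add_le (x y : D) : sz B a (x + y) ≤ sz B a x + sz B a y := by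
  refine (sz_le_iff B a (add_nonneg (sz_nonneg B a x) (sz_nonneg B a y))).mpr fun i j => ?_
  rw [map_add, Finsupp.add_apply]
  exact ((a i).add_le _ _).trans (add_le_add (coord_le B a x i j) (coord_le B a y i j))

theorem sz_add_le_max (ha : ∀ i, IsNonarchimedean (a i)) (x y : D) :
    sz B a (x + y) ≤ max (sz B a x) (sz B a y) := by
  refine (sz_le_iff B a ((sz_nonneg B a x).trans (le_max_left _ _))).mpr fun i j => ?_
  rw [map_add, Finsupp.add_apply]
  exact (ha i _ _).trans (max_le_max (coord_le B a x i j) (coord_le B a y i j))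

theorem eq_zero_of_sz [Nonempty ι] {x : D} (h : sz B a x = 0) : x = 0 := by
  obtain ⟨i⟩ := ‹Nonempty ι›
  have h1 : ∀ j, B.repr x j = 0 := fun j =>
    (a i).eq_zero.mp (le_antisymm ((coord_le B a x i j).trans h.le) ((a i).nonneg _))
  rw [← B.sum_repr x]
  exact Finset.sum_eq_zero fun j _ => by rw [h1 j, zero_smul]

theorem abv_sum_le {η : Type*} (i : ι) (s : Finset η) (f : η → k) :
    a i (∑ j ∈ s, f j) ≤ ∑ j ∈ s, a i (f j) := AbsoluteValue.sum_le _ _ _

/-- linear maps are bounded -/
theorem sz_linear (f : D →ₗ[k] D) : ∃ C : ℝ, 0 < C ∧ ∀ x, sz B a (f x) ≤ C * sz B a x := by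
  have h0 : 0 ≤ ∑ l, sz B a (f (B l)) := Finset.sum_nonneg fun l _ => sz_nonneg B a _
  refine ⟨∑ l, sz B a (f (B l)) + 1, by linarith, fun x => ?_⟩
  have hx := sz_nonneg B a x
  refine (sz_le_iff B a (by positivity)).mpr fun i j => ?_
  have h1 : B.repr (f x) j = ∑ l, B.repr x l * B.repr (f (B l)) j := by
    conv_lhs => rw [← B.sum_repr x]
    rw [map_sum, map_sum, Finsupp.finsetSum_apply]
    refine Finset.sum_congr rfl fun l _ => ?_
    rw [map_smul, map_smul, Finsupp.smul_apply, smul_eq_mul]
  rw [h1]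
  refine ((a i).sum_le _ _).trans ?_
  have h2 : ∀ l ∈ (Finset.univ : Finset κ), a i (B.repr x l * B.repr (f (B l)) j) ≤
      sz B a (f (B l)) * sz B a x := by
    intro l _
    rw [map_mul, mul_comm]
    exact mul_le_mul (coord_le B a _ i j) (coord_le B a x i l) ((a i).nonneg _) (sz_nonneg B a _)
  refine (Finset.sum_le_sum h2).trans ?_
  rw [← Finset.sum_mul]
  exact mul_le_mul_of_nonneg_right (by linarith) hx

/-- the multiplication is bounded -/
theorem sz_mul : ∃ C : ℝ, 0 < C ∧ ∀ x y, sz B a (x * y) ≤ C * sz B a x * sz B a y := by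
  choose C hC hCm using fun l => sz_linear B a (LinearMap.mulLeft k (B l))
  have h0 : 0 ≤ ∑ l, C l := Finset.sum_nonneg fun l _ => (hC l).le
  refine ⟨∑ l, C l + 1, by linarith, fun x y => ?_⟩
  have hx := sz_nonneg B a x
  have hy := sz_nonneg B a y
  refine (sz_le_iff B a (by positivity)).mpr fun i j => ?_
  have h1 : B.repr (x * y) j = ∑ l, B.repr x l * B.repr (B l * y) j := by
    conv_lhs => rw [← B.sum_repr x]
    rw [Finset.sum_mul, map_sum, Finsupp.finsetSum_apply]
    refine Finset.sum_congr rfl fun l _ => ?_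
    rw [smul_mul_assoc, map_smul, Finsupp.smul_apply, smul_eq_mul]
  rw [h1]
  refine ((a i).sum_le _ _).trans ?_
  have h2 : ∀ l ∈ (Finset.univ : Finset κ), a i (B.repr x l * B.repr (B l * y) j) ≤
      C l * (sz B a x * sz B a y) := by
    intro l _
    rw [map_mul]
    calc a i (B.repr x l) * a i (B.repr (B l * y) j) ≤ sz B a x * (C l * sz B a y) :=
          mul_le_mul (coord_le B a x i l) ((coord_le B a _ i j).trans (hCm l y)) ((a i).nonneg _) hx
      _ = C l * (sz B a x * sz B a y) := by ring
  refine (Finset.sum_le_sum h2).trans ?_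
  rw [← Finset.sum_mul]
  have : 0 ≤ sz B a x * sz B a y := by positivity
  nlinarith

end size

section top

variable {k D : Type*} [Field k] [DivisionRing D] [Algebra k D] {ι κ : Type*} [Fintype ι]
  [Fintype κ] [Nonempty ι]

/-- The size as a norm of the additive group. -/
noncomputable def nrm (B : Basis κ k D) (a : ι → AbsoluteValue k ℝ) : AddGroupNorm D where
  toFun := sz B a
  map_zero' := sz_zero B a
  add_le' := sz_add_le B a
  neg' := sz_neg B a
  eq_zero_of_map_eq_zero' _ h := eq_zero_of_sz B a h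

/-- The normed additive group. -/
noncomputable abbrev grp (B : Basis κ k D) (a : ι → AbsoluteValue k ℝ) : NormedAddCommGroup D :=
  (nrm B a).toNormedAddCommGroup

/-- **The topology of `D`.** -/
noncomputable def topD (B : Basis κ k D) (a : ι → AbsoluteValue k ℝ) : TopologicalSpace D :=
  (grp B a).toMetricSpace.toUniformSpace.toTopologicalSpace

variable (B : Basis κ k D) (a : ι → AbsoluteValue k ℝ)

theorem hasBasis (x₀ : D) : (@nhds D (topD B a) x₀).HasBasis (fun ε : ℝ => 0 < ε)
    fun ε => {x | sz B a (x - x₀) < ε} := by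
  letI := grp B a
  have h : (𝓝 x₀).HasBasis (fun ε : ℝ => 0 < ε) (Metric.ball x₀) := Metric.nhds_basis_ball
  have e : ∀ ε, Metric.ball x₀ ε = {x | sz B a (x - x₀) < ε} := fun ε => by
    ext x
    rw [mem_ball_iff_norm]
    rfl
  rw [show (fun ε : ℝ => {x | sz B a (x - x₀) < ε}) = Metric.ball x₀ from
    (funext fun ε => (e ε).symm)]
  exact h

theorem tendsto_iff {X : Type*} {l : Filter X} {f : X → D} {y : D} :
    Tendsto f l (@nhds D (topD B a) y) ↔ Tendsto (fun x => sz B a (f x - y)) l (𝓝 0) := by
  letI := grp B a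
  have h : Tendsto f l (𝓝 y) ↔ Tendsto (fun x => ‖f x - y‖) l (𝓝 0) :=
    tendsto_iff_norm_sub_tendsto_zero
  exact h

theorem t2 : @T2Space D (topD B a) := by
  letI := grp B a
  have : T2Space D := inferInstance
  exact this

theorem isTopologicalAddGroup : @IsTopologicalAddGroup D (topD B a) _ := by
  letI := grp B a
  have : IsTopologicalAddGroup D := inferInstance
  exact this

theorem continuous_sz : @Continuous D ℝ (topD B a) _ (sz B a) := by
  letI := grp B a
  have h : Continuous fun x : D => ‖x‖ := continuous_norm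
  exact h

theorem tendsto_mul (x y : D) : Tendsto (fun p : D × D => p.1 * p.2)
    (@nhds D (topD B a) x ×ˢ @nhds D (topD B a) y) (@nhds D (topD B a) (x * y)) := by
  obtain ⟨C, hC, hm⟩ := sz_mul B a
  letI := topD B a
  have hadd := isTopologicalAddGroup B a
  rw [tendsto_iff B a]
  have hb : ∀ p : D × D, sz B a (p.1 * p.2 - x * y) ≤
      C * sz B a p.1 * sz B a (p.2 - y) + C * sz B a (p.1 - x) * sz B a y := by
    intro p
    have h1 : p.1 * p.2 - x * y = p.1 * (p.2 - y) + (p.1 - x) * y := by
      rw [mul_sub, sub_mul]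
      abel
    rw [h1]
    exact (sz_add_le B a _ _).trans (add_le_add (hm _ _) (hm _ _))
  have h1 : Tendsto (fun p : D × D => sz B a p.1) (𝓝 x ×ˢ 𝓝 y) (𝓝 (sz B a x)) :=
    (continuous_sz B a).continuousAt.tendsto.comp tendsto_fst
  have h2 : Tendsto (fun p : D × D => sz B a (p.2 - y)) (𝓝 x ×ˢ 𝓝 y) (𝓝 0) :=
    ((tendsto_iff B a).mp tendsto_id).comp tendsto_snd
  have h3 : Tendsto (fun p : D × D => sz B a (p.1 - x)) (𝓝 x ×ˢ 𝓝 y) (𝓝 0) :=
    ((tendsto_iff B a).mp tendsto_id).comp tendsto_fst
  have h4 : Tendsto (fun p : D × D => C * sz B a p.1 * sz B a (p.2 - y) +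
      C * sz B a (p.1 - x) * sz B a y) (𝓝 x ×ˢ 𝓝 y)
      (𝓝 (C * sz B a x * 0 + C * 0 * sz B a y)) :=
    ((h1.const_mul C).mul h2).add ((h3.const_mul C).mul_const _)
  rw [mul_zero, mul_zero, zero_mul, add_zero] at h4
  exact squeeze_zero (fun p => sz_nonneg B a _) hb h4

theorem isTopologicalRing : @IsTopologicalRing D (topD B a) _ := by
  letI := topD B a
  have hadd := isTopologicalAddGroup B a
  have hmul : ContinuousMul D := ⟨continuous_iff_continuousAt.mpr fun p => by
    have h := tendsto_mul B a p.1 p.2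
    rw [← nhds_prod_eq] at h
    exact h⟩
  exact { continuous_add := continuous_add, continuous_mul := continuous_mul,
          continuous_neg := continuous_neg }

theorem continuousInv₀ : @ContinuousInv₀ D _ _ (topD B a) := by
  obtain ⟨C, hC, hm⟩ := sz_mul B a
  letI := topD B a
  have hadd := isTopologicalAddGroup B a
  refine ⟨fun x₀ hx₀ => ?_⟩
  change Tendsto _ _ _
  rw [tendsto_iff B a]
  -- the bound of the inverse
  have hs : Tendsto (fun x => sz B a (x - x₀)) (𝓝 x₀) (𝓝 0) := (tendsto_iff B a).mp tendsto_id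
  set M := sz B a x₀⁻¹ with hM
  have hM0 : 0 ≤ M := sz_nonneg B a _
  have hsmall : ∀ᶠ x in 𝓝 x₀, C * C * M * sz B a (x - x₀) < 1 / 2 := by
    have h1 : Tendsto (fun x => C * C * M * sz B a (x - x₀)) (𝓝 x₀) (𝓝 (C * C * M * 0)) :=
      hs.const_mul _
    rw [mul_zero] at h1
    exact h1.eventually_lt_const (by norm_num)
  have hne : ∀ᶠ x in 𝓝 x₀, x ≠ 0 := by
    have := t2 B a
    exact isOpen_ne.mem_nhds hx₀
  have hid : ∀ x : D, x ≠ 0 → x⁻¹ - x₀⁻¹ = -(x⁻¹ * ((x - x₀) * x₀⁻¹)) := by
    intro x hx
    rw [sub_mul, mul_sub, mul_inv_cancel₀ hx₀, mul_one, ← mul_assoc, inv_mul_cancel₀ hx, one_mul]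
    abel
  have hb : ∀ᶠ x in 𝓝 x₀, sz B a (x⁻¹ - x₀⁻¹) ≤ (2 * M) * (C * C * M * sz B a (x - x₀)) := by
    filter_upwards [hsmall, hne] with x h1 h2
    have hx0 := sz_nonneg B a x⁻¹
    have hd0 := sz_nonneg B a (x - x₀)
    have h3 : sz B a (x⁻¹ - x₀⁻¹) ≤ sz B a x⁻¹ * (C * C * M * sz B a (x - x₀)) := by
      rw [hid x h2, sz_neg]
      refine (hm _ _).trans ?_
      calc C * sz B a x⁻¹ * sz B a ((x - x₀) * x₀⁻¹)
          ≤ C * sz B a x⁻¹ * (C * sz B a (x - x₀) * M) :=
            mul_le_mul_of_nonneg_left (hm _ _) (by positivity)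
        _ = sz B a x⁻¹ * (C * C * M * sz B a (x - x₀)) := by ring
    have h4 : sz B a x⁻¹ ≤ 2 * M := by
      have h5 : sz B a x⁻¹ ≤ sz B a (x⁻¹ - x₀⁻¹) + M := by
        have := sz_add_le B a (x⁻¹ - x₀⁻¹) x₀⁻¹
        rwa [sub_add_cancel] at this
      have h6 : sz B a x⁻¹ * (C * C * M * sz B a (x - x₀)) ≤ sz B a x⁻¹ * (1 / 2) :=
        mul_le_mul_of_nonneg_left h1.le hx0
      linarith
    exact h3.trans (mul_le_mul_of_nonneg_right h4 (by positivity))
  have hlim : Tendsto (fun x => (2 * M) * (C * C * M * sz B a (x - x₀))) (𝓝 x₀) (𝓝 0) := by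
    have h1 : Tendsto (fun x => (2 * M) * (C * C * M * sz B a (x - x₀))) (𝓝 x₀)
        (𝓝 ((2 * M) * (C * C * M * 0))) := (hs.const_mul _).const_mul _
    rwa [mul_zero, mul_zero] at h1
  exact squeeze_zero' (Eventually.of_forall fun x => sz_nonneg B a _) hb hlim

/-- **`D` is a topological division ring.** -/
theorem isTopologicalDivisionRing : @IsTopologicalDivisionRing D _ (topD B a) := by
  letI := topD B a
  have h1 := isTopologicalRing B a
  have h2 := continuousInv₀ B a
  exact { }

theorem continuousStar [StarRing D] (hst : ∀ (c : k) (x : D), star (c • x) = c • star x) :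
    @ContinuousStar D (topD B a) _ := by
  obtain ⟨C, hC, hs⟩ := sz_linear B a
    { toFun := star, map_add' := star_add, map_smul' := hst : D →ₗ[k] D }
  letI := topD B a
  refine ⟨continuous_iff_continuousAt.mpr fun x₀ => ?_⟩
  change Tendsto _ _ _
  rw [tendsto_iff B a]
  have h1 : Tendsto (fun x => C * sz B a (x - x₀)) (𝓝 x₀) (𝓝 (C * 0)) :=
    ((tendsto_iff B a).mp tendsto_id).const_mul C
  rw [mul_zero] at h1
  refine squeeze_zero (fun x => sz_nonneg B a _) (fun x => ?_) h1
  rw [← star_sub]
  exact hs (x - x₀)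

theorem nonarchimedeanAddGroup (ha : ∀ i, IsNonarchimedean (a i)) :
    @NonarchimedeanAddGroup D _ (topD B a) := by
  letI := topD B a
  have hadd := isTopologicalAddGroup B a
  refine { toIsTopologicalAddGroup := hadd, is_nonarchimedean := fun U hU => ?_ }
  obtain ⟨ε, hε, hs⟩ := (hasBasis B a 0).mem_iff.mp hU
  let V : AddSubgroup D :=
    { carrier := {x | sz B a x < ε}
      add_mem' := fun {x y} hx hy => (sz_add_le_max B a ha x y).trans_lt (max_lt hx hy)
      zero_mem' := by
        change sz B a 0 < ε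
        rwa [sz_zero]
      neg_mem' := fun {x} hx => by
        change sz B a (-x) < ε
        rw [sz_neg]
        exact hx }
  have hVn : (V : Set D) ∈ 𝓝 (0 : D) := by
    refine (hasBasis B a 0).mem_iff.mpr ⟨ε, hε, fun x hx => ?_⟩
    rw [Set.mem_ofPred_eq, sub_zero] at hx
    exact hx
  refine ⟨⟨V, V.isOpen_of_mem_nhds hVn⟩, fun x hx => hs ?_⟩
  rw [Set.mem_ofPred_eq, sub_zero]
  exact hx

/-- The neighbourhoods in coordinates. -/
theorem eventually_iff {x₀ : D} {P : D → Prop} : (∀ᶠ x in @nhds D (topD B a) x₀, P x) ↔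
    ∃ ε : ℝ, 0 < ε ∧ ∀ x, (∀ i j, a i (B.repr (x - x₀) j) < ε) → P x := by
  rw [(hasBasis B a x₀).eventually_iff]
  constructor
  · rintro ⟨ε, hε, h⟩
    exact ⟨ε, hε, fun x hx => h ((sz_lt_iff B a hε).mpr hx)⟩
  · rintro ⟨ε, hε, h⟩
    exact ⟨ε, hε, fun x hx => h x ((sz_lt_iff B a hε).mp hx)⟩

theorem mem_nhds_iff {x₀ : D} {U : Set D} : U ∈ @nhds D (topD B a) x₀ ↔
    ∃ ε : ℝ, 0 < ε ∧ ∀ x, (∀ i j, a i (B.repr (x - x₀) j) < ε) → x ∈ U :=
  eventually_iff B a (P := fun x => x ∈ U)

/-- Multiples by small scalars are small. -/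
theorem sz_smul_le (c : k) (x : D) {r : ℝ} (hr : ∀ i, a i c ≤ r) (hr0 : 0 ≤ r) :
    sz B a (c • x) ≤ r * sz B a x := by
  have hx := sz_nonneg B a x
  refine (sz_le_iff B a (by positivity)).mpr fun i j => ?_
  rw [map_smul, Finsupp.smul_apply, smul_eq_mul, map_mul]
  exact mul_le_mul (hr i) (coord_le B a x i j) ((a i).nonneg _) hr0

/-- The powers of a topologically nilpotent scalar tend to zero. -/
theorem tendsto_pow {t : k} (ht : ∀ i, a i t < 1) (x : D) :
    Tendsto (fun m : ℕ => t ^ m • x) atTop (@nhds D (topD B a) 0) := by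
  letI := topD B a
  rw [tendsto_iff B a]
  obtain ⟨r, hr0, hr1, hr⟩ : ∃ r : ℝ, 0 ≤ r ∧ r < 1 ∧ ∀ i, a i t ≤ r := by
    obtain ⟨i0, hi0⟩ := Finite.exists_max fun i => a i t
    exact ⟨a i0 t, (a i0).nonneg _, ht i0, hi0⟩
  have h1 : Tendsto (fun m : ℕ => r ^ m * sz B a x) atTop (𝓝 (0 * sz B a x)) :=
    (tendsto_pow_atTop_nhds_zero_of_lt_one hr0 hr1).mul_const _
  rw [zero_mul] at h1
  refine squeeze_zero (fun m => sz_nonneg B a _) (fun m => ?_) h1
  rw [sub_zero]
  refine sz_smul_le B a _ _ (fun i => ?_) (by positivity)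
  rw [map_pow]
  exact pow_le_pow_left₀ ((a i).nonneg _) (hr i) m

end top

/-! ### The topology induced on a central field -/

section induced

variable {D : Type*} [DivisionRing D] {F : Type*} [Field F] [Algebra F D]

/-- The topology induced on a field over which `D` is an algebra. -/
def topI (F : Type*) {D : Type*} [DivisionRing D] [Field F] [Algebra F D]
    (τ : TopologicalSpace D) : TopologicalSpace F := τ.induced (algebraMap F D)

variable (τ : TopologicalSpace D)

theorem topI_inducing : @IsInducing F D (topI F τ) τ (algebraMap F D) := by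
  letI := topI F τ
  exact ⟨rfl⟩

theorem topI_continuous : @Continuous F D (topI F τ) τ (algebraMap F D) := by
  letI := topI F τ
  exact (topI_inducing τ).continuous

theorem topI_t2 [T2Space D] : @T2Space F (topI F τ) := by
  letI := topI F τ
  exact T2Space.of_injective_continuous (algebraMap F D).injective (topI_continuous τ)

theorem topI_isTopologicalRing [IsTopologicalRing D] : @IsTopologicalRing F (topI F τ) _ := by
  letI := topI F τ
  have hi : IsInducing (algebraMap F D) := topI_inducing τ
  have h0 : Continuous (algebraMap F D) := topI_continuous τ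
  refine { continuous_add := hi.continuous_iff.mpr ?_, continuous_mul := hi.continuous_iff.mpr ?_,
           continuous_neg := hi.continuous_iff.mpr ?_ }
  · have h1 : (algebraMap F D) ∘ (fun p : F × F => p.1 + p.2) =
        fun p => algebraMap F D p.1 + algebraMap F D p.2 := funext fun p => map_add _ _ _
    rw [h1]
    exact (h0.comp continuous_fst).add (h0.comp continuous_snd)
  · have h1 : (algebraMap F D) ∘ (fun p : F × F => p.1 * p.2) =
        fun p => algebraMap F D p.1 * algebraMap F D p.2 := funext fun p => map_mul _ _ _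
    rw [h1]
    exact (h0.comp continuous_fst).mul (h0.comp continuous_snd)
  · have h1 : (algebraMap F D) ∘ (fun x : F => -x) = fun x => -algebraMap F D x :=
      funext fun p => map_neg _ _
    rw [h1]
    exact h0.neg

theorem topI_isTopologicalDivisionRing [IsTopologicalDivisionRing D] :
    @IsTopologicalDivisionRing F _ (topI F τ) := by
  letI := topI F τ
  have h1 := topI_isTopologicalRing (F := F) τ
  have hi : IsInducing (algebraMap F D) := topI_inducing τ
  have h0 : Continuous (algebraMap F D) := topI_continuous τ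
  have h2 : ContinuousInv₀ F := by
    refine ⟨fun x hx => ?_⟩
    rw [ContinuousAt, hi.tendsto_nhds_iff]
    have h3 : (algebraMap F D) ∘ (fun x : F => x⁻¹) = fun x => (algebraMap F D x)⁻¹ :=
      funext fun p => map_inv₀ _ _
    have h4 : (algebraMap F D) (x⁻¹) = (algebraMap F D x)⁻¹ := map_inv₀ _ _
    rw [h4]
    change Tendsto ((algebraMap F D) ∘ (fun x : F => x⁻¹)) _ _
    rw [h3]
    have h5 : algebraMap F D x ≠ 0 := (map_ne_zero_iff _ (algebraMap F D).injective).mpr hx
    exact (continuousAt_inv₀ h5).tendsto.comp h0.continuousAt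
  exact { }

theorem topI_nonarchimedean [NonarchimedeanAddGroup D] :
    @NonarchimedeanAddGroup F _ (topI F τ) := by
  letI := topI F τ
  have hi : IsInducing (algebraMap F D) := topI_inducing τ
  have h0 : Continuous (algebraMap F D) := topI_continuous τ
  have hadd : IsTopologicalAddGroup F := by
    refine { continuous_add := hi.continuous_iff.mpr ?_, continuous_neg := hi.continuous_iff.mpr ?_ }
    · have h1 : (algebraMap F D) ∘ (fun p : F × F => p.1 + p.2) =
          fun p => algebraMap F D p.1 + algebraMap F D p.2 := funext fun p => map_add _ _ _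
      rw [h1]
      exact (h0.comp continuous_fst).add (h0.comp continuous_snd)
    · have h1 : (algebraMap F D) ∘ (fun x : F => -x) = fun x => -algebraMap F D x :=
        funext fun p => map_neg _ _
      rw [h1]
      exact h0.neg
  refine { toIsTopologicalAddGroup := hadd, is_nonarchimedean := fun U hU => ?_ }
  rw [hi.nhds_eq_comap, mem_comap] at hU
  obtain ⟨V, hV, hVU⟩ := hU
  rw [map_zero] at hV
  obtain ⟨W, hW⟩ := NonarchimedeanAddGroup.is_nonarchimedean V hV
  exact ⟨W.comap (algebraMap F D).toAddMonoidHom h0, fun x hx => hVU (hW hx)⟩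

theorem topI_continuousStar [StarRing F] [StarRing D] [ContinuousStar D]
    (hs : ∀ c : F, star (algebraMap F D c) = algebraMap F D (star c)) :
    @ContinuousStar F (topI F τ) _ := by
  letI := topI F τ
  have hi : IsInducing (algebraMap F D) := topI_inducing τ
  have h0 : Continuous (algebraMap F D) := topI_continuous τ
  refine ⟨hi.continuous_iff.mpr ?_⟩
  have h1 : (algebraMap F D) ∘ star = fun x => star (algebraMap F D x) :=
    funext fun p => (hs p).symm
  rw [h1]
  exact continuous_star.comp h0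

theorem topI_continuousSMul [ContinuousMul D] : @ContinuousSMul F D _ (topI F τ) τ := by
  letI := topI F τ
  have h0 : Continuous (algebraMap F D) := topI_continuous τ
  refine ⟨?_⟩
  have h1 : (fun p : F × D => p.1 • p.2) = fun p => algebraMap F D p.1 * p.2 :=
    funext fun p => Algebra.smul_def _ _
  rw [h1]
  exact (h0.comp continuous_fst).mul continuous_snd

end induced

section small

variable {k K D : Type*} [Field k] [Field K] [StarRing K] [DivisionRing D] [Algebra k D]
  [Algebra k K] [Algebra K D] [IsScalarTower k K D] {ι κ : Type*} [Fintype ι] [Fintype κ]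
  [Nonempty ι] (B : Basis κ k D) (a : ι → AbsoluteValue k ℝ)

/-- The powers of a topologically nilpotent scalar tend to zero. -/
theorem tendsto_pow_alg {t : k} (ht : ∀ i, a i t < 1) :
    Tendsto (fun m : ℕ => algebraMap k D t ^ m) atTop (@nhds D (topD B a) 0) := by
  letI := topD B a
  have h := tendsto_pow B a ht (1 : D)
  refine h.congr fun m => ?_
  rw [Algebra.smul_def, mul_one, map_pow]

theorem tendsto_pow_K {t : k} (ht : ∀ i, a i t < 1) :
    Tendsto (fun m : ℕ => algebraMap k K t ^ m) atTop (@nhds K (topI K (topD B a)) 0) := by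
  letI := topD B a
  letI := topI K (topD B a)
  have hi : IsInducing (algebraMap K D) := topI_inducing (topD B a)
  rw [hi.tendsto_nhds_iff, map_zero]
  refine (tendsto_pow_alg B a ht).congr fun m => ?_
  rw [Function.comp_apply, map_pow, ← IsScalarTower.algebraMap_apply]

/-- Powers of a topologically nilpotent scalar are distinct. -/
theorem pow_injective {t : k} (ht0 : t ≠ 0) (ht : ∀ i, a i t < 1) :
    Function.Injective fun m : ℕ => t ^ m := by
  obtain ⟨i⟩ := ‹Nonempty ι›
  intro m m' h
  have h1 : a i t ^ m = a i t ^ m' := by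
    rw [← map_pow, ← map_pow]
    exact congrArg (a i) h
  exact pow_right_injective₀ ((a i).pos ht0) (ht i).ne h1

/-- Elements of `K` close to zero with norms outside a given finite set. -/
theorem exists_norm_notMem {t : k} (ht0 : t ≠ 0) (ht : ∀ i, a i t < 1)
    (hfix : ∀ c : k, star (algebraMap k K c) = algebraMap k K c) (O : Set K)
    (hO : O ∈ @nhds K (topI K (topD B a)) 0) (S : Finset K) :
    ∃ ν ∈ O, ν ≠ 0 ∧ ν * star ν ∉ S := by
  letI := topI K (topD B a)
  have h1 : ∀ᶠ m : ℕ in atTop, algebraMap k K t ^ m ∈ O := (tendsto_pow_K B a ht).eventually_mem hO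
  have hinj : Function.Injective fun m : ℕ => algebraMap k K t ^ m * star (algebraMap k K t ^ m) := by
    intro m m' h
    simp only [hfix, ← map_pow, ← map_mul] at h
    have h2 := (algebraMap k K).injective h
    rw [← pow_add, ← pow_add] at h2
    have h3 : m + m = m' + m' := pow_injective a ht0 ht h2
    omega
  have h2 : ∀ᶠ m : ℕ in atTop, algebraMap k K t ^ m * star (algebraMap k K t ^ m) ∉ S := by
    have h3 := S.finite_toSet.preimage (hinj.injOn (s := _))
    have h4 := h3.compl_mem_cofinite
    rw [Nat.cofinite_eq_atTop] at h4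
    exact h4
  obtain ⟨m, hm1, hm2⟩ := (h1.and h2).exists
  exact ⟨_, hm1, pow_ne_zero _ ((map_ne_zero_iff _ (algebraMap k K).injective).mpr ht0), hm2⟩

/-- Scalars close to zero. -/
theorem exists_small {t : k} (ht0 : t ≠ 0) (ht : ∀ i, a i t < 1) (O : Set D)
    (hO : O ∈ @nhds D (topD B a) 0) : ∃ c : k, c ≠ 0 ∧ algebraMap k D c ∈ O := by
  letI := topD B a
  obtain ⟨m, hm⟩ := ((tendsto_pow_alg B a ht).eventually_mem hO).exists
  exact ⟨t ^ m, pow_ne_zero _ ht0, by rwa [map_pow]⟩

/-- The field `K` is not discrete. -/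
theorem neBot_K {t : k} (ht0 : t ≠ 0) (ht : ∀ i, a i t < 1) :
    (@nhdsWithin K (topI K (topD B a)) 0 {0}ᶜ).NeBot := by
  letI := topI K (topD B a)
  have h1 : Tendsto (fun m : ℕ => algebraMap k K t ^ m) atTop (𝓝[≠] 0) :=
    tendsto_nhdsWithin_iff.mpr ⟨tendsto_pow_K B a ht, Eventually.of_forall fun m =>
      pow_ne_zero _ ((map_ne_zero_iff _ (algebraMap k K).injective).mpr ht0)⟩
  exact h1.neBot

end small

end Vale.Agent.P011.H775.Top
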