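import Mathlib.Algebra.Star.Basic
import Mathlib.Algebra.Ring.Parity
import Mathlib.Tactic

/-!
**A homomorphism killing the symmetric elements and the elements of reduced norm one kills the
elements with symmetric reduced norm** (near one).
-/

namespace Vale.Agent.P011.H775.Odd

section

variable {D F E : Type*} [DivisionRing D] [StarRing D] [MonoidWithZero F] [AddCommGroup E]
  {N : Set D} {Ψ : D → E} {nrd : D →*₀ F}

/-- a map which is additive on a set closed under products sends powers to multiples -/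
theorem psi_pow (h1 : (1 : D) ∈ N) (hmul : ∀ x ∈ N, ∀ y ∈ N, x * y ∈ N)
    (hΨ : ∀ x ∈ N, ∀ y ∈ N, Ψ (x * y) = Ψ x + Ψ y) {y : D} (hy : y ∈ N) (n : ℕ) :
    y ^ n ∈ N ∧ Ψ (y ^ n) = n • Ψ y := by
  have hΨ1 : Ψ 1 = 0 := by
    have h := hΨ 1 h1 1 h1
    rw [mul_one] at h
    exact left_eq_add.mp h
  induction n with
  | zero => exact ⟨by simpa using h1, by simpa using hΨ1⟩
  | succ n ih =>
    refine ⟨by rw [pow_succ]; exact hmul _ ih.1 _ hy, ?_⟩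
    rw [pow_succ, hΨ _ ih.1 _ hy, ih.2, succ_nsmul]

/-- a map which is additive on a group sends inverses to opposites -/
theorem psi_inv (h1 : (1 : D) ∈ N) (h0 : (0 : D) ∉ N) (hinv : ∀ x ∈ N, x⁻¹ ∈ N)
    (hΨ : ∀ x ∈ N, ∀ y ∈ N, Ψ (x * y) = Ψ x + Ψ y) {y : D} (hy : y ∈ N) : Ψ y⁻¹ = - Ψ y := by
  have hΨ1 : Ψ 1 = 0 := by
    have h := hΨ 1 h1 1 h1
    rw [mul_one] at h
    exact left_eq_add.mp h
  have hy0 : y ≠ 0 := fun h => h0 (h ▸ hy)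
  have h := hΨ y hy _ (hinv y hy)
  rw [mul_inv_cancel₀ hy0, hΨ1] at h
  exact (neg_eq_of_add_eq_zero_right h.symm).symm

/-- twice the value vanishes -/
theorem two_psi (h1 : (1 : D) ∈ N) (h0 : (0 : D) ∉ N) (hmul : ∀ x ∈ N, ∀ y ∈ N, x * y ∈ N)
    (hinv : ∀ x ∈ N, x⁻¹ ∈ N) (hstar : ∀ x ∈ N, star x ∈ N)
    (hΨ : ∀ x ∈ N, ∀ y ∈ N, Ψ (x * y) = Ψ x + Ψ y) (hsym : ∀ s ∈ N, star s = s → Ψ s = 0)
    (hW : ∀ x ∈ N, nrd x = 1 → Ψ x = 0) {y : D} (hy : y ∈ N) (hyn : nrd (star y) = nrd y) :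
    2 • Ψ y = 0 := by
  have hy0 : y ≠ 0 := fun h => h0 (h ▸ hy)
  have h2 : Ψ (star y) = Ψ y := by
    have h3 : nrd (star y * y⁻¹) = 1 := by
      rw [map_mul, hyn, ← map_mul, mul_inv_cancel₀ hy0, map_one]
    have h4 := hW _ (hmul _ (hstar y hy) _ (hinv y hy)) h3
    rw [hΨ _ (hstar y hy) _ (hinv y hy), psi_inv h1 h0 hinv hΨ hy] at h4
    exact add_neg_eq_zero.mp h4
  have h5 := hsym (y * star y) (hmul _ hy _ (hstar y hy)) (by rw [star_mul, star_star])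
  rw [hΨ _ hy _ (hstar y hy), h2] at h5
  rw [two_nsmul, h5]

/-- **The values on the elements with symmetric reduced norm vanish**: `b` is a symmetric element
with `Nrd b = (Nrd y) ^ n`, for instance `b = Nrd y`, and `n` is odd. -/
theorem psi_zero (h1 : (1 : D) ∈ N) (h0 : (0 : D) ∉ N) (hmul : ∀ x ∈ N, ∀ y ∈ N, x * y ∈ N)
    (hinv : ∀ x ∈ N, x⁻¹ ∈ N) (hstar : ∀ x ∈ N, star x ∈ N)
    (hΨ : ∀ x ∈ N, ∀ y ∈ N, Ψ (x * y) = Ψ x + Ψ y) (hsym : ∀ s ∈ N, star s = s → Ψ s = 0)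
    (hW : ∀ x ∈ N, nrd x = 1 → Ψ x = 0) {n : ℕ} (hn : Odd n) {y b : D} (hy : y ∈ N)
    (hyn : nrd (star y) = nrd y) (hb : b ∈ N) (hbs : star b = b) (hbn : nrd b = nrd y ^ n) :
    Ψ y = 0 := by
  have hb0 : b ≠ 0 := fun h => h0 (h ▸ hb)
  have h2 := two_psi h1 h0 hmul hinv hstar hΨ hsym hW hy hyn
  obtain ⟨hp, hq⟩ := psi_pow h1 hmul hΨ hy n
  have h3 : nrd (y ^ n * b⁻¹) = 1 := by
    rw [map_mul, map_pow, ← hbn, ← map_mul, mul_inv_cancel₀ hb0, map_one]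
  have h4 := hW _ (hmul _ hp _ (hinv b hb)) h3
  rw [hΨ _ hp _ (hinv b hb), psi_inv h1 h0 hinv hΨ hb, hsym b hb hbs, neg_zero, add_zero, hq] at h4
  obtain ⟨m, rfl⟩ := hn
  have h5 : (2 * m + 1) • Ψ y = m • (2 • Ψ y) + Ψ y := by
    rw [add_nsmul, one_nsmul, mul_comm, mul_nsmul']
  rw [h5, h2, smul_zero, zero_add] at h4
  exact h4

/-- the same if odd multiples of the values are known -/
theorem psi_zero' (h1 : (1 : D) ∈ N) (h0 : (0 : D) ∉ N) (hmul : ∀ x ∈ N, ∀ y ∈ N, x * y ∈ N)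
    (hinv : ∀ x ∈ N, x⁻¹ ∈ N) (hstar : ∀ x ∈ N, star x ∈ N)
    (hΨ : ∀ x ∈ N, ∀ y ∈ N, Ψ (x * y) = Ψ x + Ψ y) (hsym : ∀ s ∈ N, star s = s → Ψ s = 0)
    (hW : ∀ x ∈ N, nrd x = 1 → Ψ x = 0) {y : D} (hy : y ∈ N) (hyn : nrd (star y) = nrd y)
    (m : ℕ) (hm : Odd m) (hE : m • Ψ y = 0) : Ψ y = 0 := by
  have h2 := two_psi h1 h0 hmul hinv hstar hΨ hsym hW hy hyn
  obtain ⟨j, rfl⟩ := hm
  have h5 : (2 * j + 1) • Ψ y = j • (2 • Ψ y) + Ψ y := by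
    rw [add_nsmul, one_nsmul, mul_comm, mul_nsmul']
  rw [h5, h2, smul_zero, zero_add] at hE
  exact hE

end

end Vale.Agent.P011.H775.Odd
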