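import Vale.Agent.P011.H775.Odd.TopFF
import Vale.Agent.P011.H279.SplG

/-!
**Function fields, every characteristic: the set `T`**: the places at which the division algebra is
not split.  It is finite and nonempty, and its places split in `K`.
-/

open Module Topology Filter

set_option linter.unusedSectionVars false

namespace Vale.Agent.P011.H775.Top

open Vale.Agent.P011.H738 Vale.Agent.P011.H271 Vale.Agent.P011.H698 Vale.Agent.P011.H961
  Vale.Agent.P011.H279.Art Vale.Agent.P011.H279.Sq Vale.Agent.P011.W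

variable {k K D : Type} [Field k] [Field K] [StarRing K]
  [DivisionRing D] [StarRing D] [Algebra k K] [Algebra k D] [Algebra K D] [IsScalarTower k K D]
  {n : ℕ}

/-- **The set of places.** -/
theorem exists_TF [GFF k] (hS : SetG k K D) (hn : 2 ≤ n) (hdeg : finrank K D = n ^ 2) :
    ∃ T : Finset (Place k), T.Nonempty ∧ (∀ v ∈ T, Nonempty (K →ₐ[k] v.comp)) ∧
      ∀ v ∉ T, ∀ ι : K →ₐ[k] v.comp, Spl D n (ι : K →+* v.comp) := by
  classical
  have hR : (Bad k K D n).Finite := bad_finiteG hS (by omega) hdeg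
  refine ⟨hR.toFinset, ?_, ?_, ?_⟩
  · obtain ⟨v, hv⟩ := bad_nonemptyG hS hn hdeg
    exact ⟨v, hR.mem_toFinset.mpr hv⟩
  · intro v hv
    obtain ⟨ι, -⟩ := hR.mem_toFinset.mp hv
    exact ⟨ι⟩
  · intro v hv ι
    by_contra h
    exact hv (hR.mem_toFinset.mpr ⟨ι, h⟩)

end Vale.Agent.P011.H775.Top
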