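import Vale.Agent.P011.H775.Odd.TSetFF
import Vale.Agent.P011.H496.Spl.SplG

/-!
**Function fields, every characteristic: the set `T`** in the letters `Adiv`, `SplAt`: finite,
nonempty, its places split in `K`, it contains `Adiv`, and outside `T` the algebra is split.
-/

open Module Topology Filter

set_option linter.unusedSectionVars false

namespace Vale.Agent.P011.H775.Top

open Vale.Agent.P011.H738 Vale.Agent.P011.H271 Vale.Agent.P011.H698 Vale.Agent.P011.H961
  Vale.Agent.P011.H279.Art Vale.Agent.P011.H279.Sq Vale.Agent.P011.W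
open Vale.Agent.P011.H496.Spl (SplAt)

variable {k K D : Type} [Field k] [Field K] [StarRing K]
  [DivisionRing D] [StarRing D] [Algebra k K] [Algebra k D] [Algebra K D] [IsScalarTower k K D]
  {n : ℕ}

/-- The extension of an isometric embedding to the completion. -/
theorem exists_comp_hom (v : Place k) {L : Type} [NormedField L] [CompleteSpace L] (φ : k →+* L)
    (hφ : ∀ c, ‖φ c‖ = v.abv c) : ∃ ψ : v.comp →+* L, ∀ c, ψ (algebraMap k v.comp c) = φ c := by
  let f : WithAbs v.abv →+* L := φ.comp (WithAbs.equiv v.abv : WithAbs v.abv →+* k)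
  have hf : ∀ x : WithAbs v.abv, ‖f x‖ = ‖x‖ := fun x => hφ _
  have hcont : Continuous f := (AddMonoidHomClass.isometry_of_norm f hf).continuous
  refine ⟨UniformSpace.Completion.extensionHom f hcont, fun c => ?_⟩
  exact UniformSpace.Completion.extensionHom_coe f hcont _

/-- **Outside `Bad` the algebra is split.** -/
theorem splAt_of_notMem_bad [GFF k] (hS : SetG k K D) (hdeg : finrank K D = n ^ 2) {v : Place k}
    (hv : v ∉ Bad k K D n) : SplAt K D n v := by
  intro L _ _ _ Φ hΦ
  have hcs : CompleteSpace L := inferInstance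
  have hS' := hS
  obtain ⟨κ, hκ1, hκ⟩ := hS.exists_kappa
  obtain ⟨ν, -, hν⟩ := hS.exists_nu κ hκ1
  obtain ⟨φ, hφ⟩ := exists_comp_hom v (Φ.comp (algebraMap k K)) (fun c => hΦ c)
  have hφ' : ∀ c : k, φ (algebraMap k v.comp c) = Φ (algebraMap k K c) := fun c => hφ c
  have key : Spl D n Φ := by
    rcases isEmpty_or_nonempty (K →ₐ[k] v.comp) with hv' | ⟨⟨ι0⟩⟩
    · exact spl_nonsplitG hS hdeg hv' _ φ hφ'
    · obtain ⟨r, hr, hrs⟩ : ∃ r : v.comp, r ^ 2 = r - algebraMap k v.comp ν ∧ φ r = Φ κ := by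
        have h1 : ι0 κ ^ 2 = ι0 κ - algebraMap k v.comp ν := by
          rw [← map_pow, hν, map_sub, ι0.commutes]
        have h2 : (Φ κ) ^ 2 = Φ κ - φ (algebraMap k v.comp ν) := by
          rw [← map_pow, hν, map_sub, hφ']
        have h3 : φ (ι0 κ) ^ 2 = φ (ι0 κ) - φ (algebraMap k v.comp ν) := by
          rw [← map_pow, h1, map_sub]
        have h4 : (Φ κ - φ (ι0 κ)) * (Φ κ - φ (1 - ι0 κ)) = 0 := by
          rw [map_sub, map_one]
          linear_combination h2 - h3
        rcases mul_eq_zero.mp h4 with h | h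
        · exact ⟨ι0 κ, h1, (sub_eq_zero.mp h).symm⟩
        · exact ⟨1 - ι0 κ, by linear_combination h1, (sub_eq_zero.mp h).symm⟩
      obtain ⟨ι, hι⟩ := exists_hom' (F := k) (L := K) (M := v.comp) hS.rank (kappa_notMem hS hκ)
        (kp_monic ν) (kp_deg ν) (by rw [aeval_kp]; exact hν) (u := r) (by rw [aeval_kp]; exact hr)
      have hcomp : φ.comp (ι : K →+* v.comp) = Φ := by
        refine hom_extG hS hκ (fun c => ?_) ?_
        · rw [RingHom.comp_apply]
          change φ (ι (algebraMap k K c)) = _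
          rw [ι.commutes, hφ']
        · rw [RingHom.comp_apply]
          change φ (ι κ) = _
          rw [hι, hrs]
      have hsp : Spl D n (ι : K →+* v.comp) := by
        by_contra h
        exact hv ⟨ι, h⟩
      have h1 := hsp.comp φ
      rwa [hcomp] at h1
  obtain ⟨g, hg⟩ := key
  exact ⟨g, hg⟩

/-- **The set of places.** -/
theorem exists_TF' [GFF k] (hS : SetG k K D) (hn : 2 ≤ n) (hdeg : finrank K D = n ^ 2) :
    ∃ T : Finset (Place k), T.Nonempty ∧ (∀ v ∈ T, Nonempty (K →ₐ[k] v.comp)) ∧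
      Adiv k K D ⊆ (T : Set (Place k)) ∧ ∀ v, v ∉ T → SplAt K D n v := by
  classical
  have hsm := hS.starModule
  have hR : (Bad k K D n).Finite := bad_finiteG hS (by omega) hdeg
  refine ⟨hR.toFinset, ?_, ?_, ?_, ?_⟩
  · obtain ⟨v, hv⟩ := bad_nonemptyG hS hn hdeg
    exact ⟨v, hR.mem_toFinset.mpr hv⟩
  · intro v hv
    obtain ⟨ι, -⟩ := hR.mem_toFinset.mp hv
    exact ⟨ι⟩
  · intro v hv
    rw [Finset.mem_coe, hR.mem_toFinset]
    obtain ⟨φ, hφ⟩ := id hv
    refine ⟨φ, ?_⟩
    rintro ⟨g, hg⟩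
    exact notMem_Adiv (hS.anis hdeg) hn hg hv
  · intro v hv
    exact splAt_of_notMem_bad hS hdeg fun h => hv (hR.mem_toFinset.mpr h)

end Vale.Agent.P011.H775.Top
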